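import Vale.Agent.P267.H221.Sys
import Vale.Agent.P267.H181.Frm
import Vale.Agent.P267.H399.LBTensor
import Vale.Agent.P267.H439.OfLoc

/-!
# P267 (helper439), package DICT for line bundles, part A: holomorphic frames on a finite system
of charts, the bundle `Bun A 1` of `K^κ ⊗ (L, a)`, dual frames
-/

set_option linter.unusedSectionVars false
set_option linter.unusedVariables false

open scoped Manifold ContDiff ComplexConjugate Topology Matrix
open Set Filter

noncomputable section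

namespace Vale.Agent.P267.H439

open FL RR

variable {X : Type*} [TopologicalSpace X] [ChartedSpace C2 X] [IsManifold 𝓘(ℂ, C2) ω X]
variable {ι : Type} [Fintype ι] [DecidableEq ι]

/-! ### coefficients with respect to a vector of the fibre -/

/-- coefficient of `v` with respect to `t`: `⟨t, v⟩ / |t|^2` -/
def cfv (t v : EuclideanSpace ℂ ι) : ℂ := ∑ j, conj (t j) * ((‖t‖ ^ 2 : ℝ) : ℂ)⁻¹ * v j

theorem coef0_eq (s t : X → EuclideanSpace ℂ ι) (y : X) : H181.coef0 s t y = cfv (s y) (t y) := rfl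

theorem coef1_eq (s : X → EuclideanSpace ℂ ι) (w : X → Fin 2 → EuclideanSpace ℂ ι) (y : X)
    (k : Fin 2) : H181.coef1 s w y k = cfv (s y) (w y k) := rfl

theorem cfv_add (t v w : EuclideanSpace ℂ ι) : cfv t (v + w) = cfv t v + cfv t w := by
  simp only [cfv, PiLp.add_apply, mul_add, Finset.sum_add_distrib]

theorem cfv_smul (t : EuclideanSpace ℂ ι) (c : ℂ) (v : EuclideanSpace ℂ ι) :
    cfv t (c • v) = c * cfv t v := by
  simp only [cfv, PiLp.smul_apply, smul_eq_mul, Finset.mul_sum]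
  exact Finset.sum_congr rfl fun j _ => by ring

theorem cfv_zero (t : EuclideanSpace ℂ ι) : cfv t 0 = 0 := by simp [cfv]

theorem cfv_self {t : EuclideanSpace ℂ ι} (ht : t ≠ 0) : cfv t t = 1 := by
  have h1 : ((‖t‖ ^ 2 : ℝ) : ℂ) ≠ 0 := by
    have : ‖t‖ ≠ 0 := norm_ne_zero_iff.2 ht
    exact_mod_cast pow_ne_zero 2 this
  have h2 : ∑ j, conj (t j) * t j = ((‖t‖ ^ 2 : ℝ) : ℂ) := by
    rw [EuclideanSpace.norm_sq_eq]
    push_cast
    refine Finset.sum_congr rfl fun j _ => ?_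
    rw [mul_comm, Complex.mul_conj, Complex.normSq_eq_norm_sq]
    push_cast
    rfl
  have h3 : cfv t t = (∑ j, conj (t j) * t j) * ((‖t‖ ^ 2 : ℝ) : ℂ)⁻¹ := by
    rw [cfv, Finset.sum_mul]
    exact Finset.sum_congr rfl fun j _ => by ring
  rw [h3, h2, mul_inv_cancel₀ h1]

theorem cfv_smul_self (t : EuclideanSpace ℂ ι) (ht : t ≠ 0) (c : ℂ) : cfv t (c • t) = c := by
  rw [cfv_smul, cfv_self ht, mul_one]

/-- in the fibre: `v = (cfv t v) t` -/
theorem eq_cfv (L : LB X ι) {x : X} {t v : EuclideanSpace ℂ ι} (ht : LB.act (L.P x) t = t)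
    (h0 : t ≠ 0) (hv : LB.act (L.P x) v = v) : v = cfv t v • t :=
  (H181.eq_cf (s := fun _ : X => t) (x := x) (L.herm x) (L.idem x) (L.tr x) ht h0 hv).symm

/-! ### frames -/

/-- Holomorphic frames `t i` of `(L, a)` over the open sets `A.U i`. -/
structure LFr (A : FinAt X) (L : LB X ι) (a : X → Fin 2 → ℂ) where
  t : Fin A.N → X → EuclideanSpace ℂ ι
  sm : ∀ i, ∀ x ∈ A.U i, At0 ∞ 0 (t i) x
  sec : ∀ i, ∀ x ∈ A.U i, LB.act (L.P x) (t i x) = t i x
  ne : ∀ i, ∀ x ∈ A.U i, t i x ≠ 0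
  hol : ∀ i, ∀ x ∈ A.U i, L.db0 a 0 (t i) x = 0

namespace LFr

variable {A : FinAt X} {L : LB X ι} {a : X → Fin 2 → ℂ} (F : LFr A L a)

/-- transition functions: `t i = g i j • t j` on `U i ∩ U j` -/
def g (i j : Fin A.N) (x : X) : ℂ := cfv (F.t j x) (F.t i x)

theorem t_eq {i j : Fin A.N} {x : X} (hi : x ∈ A.U i) (hj : x ∈ A.U j) :
    F.t i x = F.g i j x • F.t j x := eq_cfv L (F.sec j x hj) (F.ne j x hj) (F.sec i x hi)

theorem g_ne {i j : Fin A.N} {x : X} (hi : x ∈ A.U i) (hj : x ∈ A.U j) : F.g i j x ≠ 0 := by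
  intro h
  have := F.t_eq hi hj
  rw [h, zero_smul] at this
  exact F.ne i x hi this

theorem g_self {i : Fin A.N} {x : X} (hi : x ∈ A.U i) : F.g i i x = 1 := cfv_self (F.ne i x hi)

theorem g_comp {i j k : Fin A.N} {x : X} (hi : x ∈ A.U i) (hj : x ∈ A.U j) (hk : x ∈ A.U k) :
    F.g i j x * F.g j k x = F.g i k x := by
  have h1 := F.t_eq hi hj
  rw [F.t_eq hj hk, smul_smul] at h1
  have h2 : F.g i k x = cfv (F.t k x) (F.t i x) := rfl
  rw [h2, h1, cfv_smul_self _ (F.ne k x hk)]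

/-- change of the coefficient of a vector of the fibre -/
theorem cfv_change {i j : Fin A.N} {x : X} (hi : x ∈ A.U i) (hj : x ∈ A.U j)
    {v : EuclideanSpace ℂ ι} (hv : LB.act (L.P x) v = v) :
    cfv (F.t j x) v = F.g i j x * cfv (F.t i x) v := by
  have h1 := eq_cfv L (F.sec i x hi) (F.ne i x hi) hv
  conv_lhs => rw [h1, cfv_smul]
  rw [mul_comm]
  rfl

theorem at0_g {i j : Fin A.N} {x : X} (hi : x ∈ A.U i) (hj : x ∈ A.U j) :
    At0 ∞ 0 (F.g i j) x := H181.at0_coef0 (F.sm j x hj) (F.ne j x hj) (F.sm i x hi)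

theorem dbar_g {i j : Fin A.N} {x : X} (hi : x ∈ A.U i) (hj : x ∈ A.U j) :
    dbar0 0 (F.g i j) x = 0 := by
  have h1 : F.t i =ᶠ[𝓝 x] fun y => F.g i j y • F.t j y := by
    filter_upwards [(A.isOpen_U i).mem_nhds hi, (A.isOpen_U j).mem_nhds hj] with y h h'
    exact F.t_eq h h'
  have h2 := H181.db0_congr (L := L) (a := a) (κ := 0) h1
  rw [F.hol i x hi] at h2
  funext k
  have h3 := congrFun h2 k
  rw [H181.db0_smul ((F.at0_g hi hj).of_le (by simp)) ((F.sm j x hj).of_le (by simp))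
    (F.sec j x hj), F.hol j x hj] at h3
  simp only [Pi.zero_apply, smul_zero, add_zero] at h3
  exact (smul_eq_zero.1 h3.symm).resolve_right (F.ne j x hj)

theorem hol_g {i j : Fin A.N} {x : X} (hi : x ∈ A.U i) (hj : x ∈ A.U j) : HolAt 0 (F.g i j) x := by
  refine holAt_of_dbar0 ?_
  filter_upwards [(A.isOpen_U i).mem_nhds hi, (A.isOpen_U j).mem_nhds hj] with y h h'
  exact ⟨(F.at0_g h h').of_le (by simp), F.dbar_g h h'⟩

theorem analyticAt_g {i j : Fin A.N} {z : C2} (hz : z ∈ A.ov i j) :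
    AnalyticAt ℂ (fun z => F.g i j ((A.e i).symm z)) z := by
  have h1 := (F.hol_g hz.1.2 hz.2).chart (A.he i) (FinAt.symm_mem_source hz.1)
  rw [(A.e i).right_inv hz.1.1] at h1
  refine h1.congr (Eventually.of_forall fun w => ?_)
  simp [loc0]

/-- the transition function of `K^κ ⊗ L` -/
def e (κ : ℤ) (i j : Fin A.N) (z : C2) : ℂ :=
  (A.J i j z).det ^ (-κ) * F.g i j ((A.e i).symm z)

theorem J_comp_det {i j k : Fin A.N} {z : C2} (hz : z ∈ A.ov i j)
    (hz' : z ∈ A.ov i k) :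
    (A.J i k z).det = (A.J j k (A.tau i j z)).det * (A.J i j z).det := by
  rw [FinAt.J_tau k hz, ← Matrix.det_mul]
  congr 1
  exact jacM_comp (A.he i) (A.he j) (A.he k) (FinAt.symm_mem_source hz.1)
    (FinAt.symm_mem_source' hz) (FinAt.symm_mem_source' hz')

/-- **The holomorphic bundle `K^κ ⊗ (L, a)` on the system of charts `A`.** -/
def bun (κ : ℤ) : Bun A 1 where
  E i j z := Matrix.of fun _ _ => F.e κ i j z
  hol i j z hz k l := by
    simp only [Matrix.of_apply]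
    have h1 : AnalyticAt ℂ (fun z => (A.J i j z).det) z := by
      simp only [Matrix.det_fin_two]
      exact ((FinAt.J_analyticAt hz 0 0).mul (FinAt.J_analyticAt hz 1 1)).sub
        ((FinAt.J_analyticAt hz 0 1).mul (FinAt.J_analyticAt hz 1 0))
    exact (h1.zpow (FinAt.J_det_ne hz)).mul (F.analyticAt_g hz)
  self i z hz := by
    ext k l
    have hx : (A.e i).symm z ∈ A.U i := hz.2
    have hJ : A.J i i z = 1 := by
      unfold FinAt.J
      exact jacM_self (FinAt.symm_mem_source hz)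
    rw [Matrix.of_apply, e, F.g_self hx, hJ, Matrix.det_one, one_zpow, one_mul,
      Subsingleton.elim k l, Matrix.one_apply_eq]
  comp i j k z hz hz' := by
    ext m l
    rw [Matrix.mul_apply]
    simp only [Matrix.of_apply, Fin.sum_univ_one, e]
    rw [FinAt.symm_tau hz, J_comp_det hz hz', mul_zpow, ← F.g_comp hz.1.2 hz.2 hz'.2]
    ring

theorem bun_E (κ : ℤ) (i j : Fin A.N) (z : C2) (k l : Fin 1) :
    (F.bun κ).E i j z k l = (A.J i j z).det ^ (-κ) * F.g i j ((A.e i).symm z) := rfl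

theorem bun_E_eq (κ : ℤ) (i j : Fin A.N) (z : C2) :
    (F.bun κ).E i j z = Matrix.of fun _ _ => F.e κ i j z := rfl

theorem bun_mulVec (κ : ℤ) (i j : Fin A.N) (z : C2) (v : Fin 1 → ℂ) :
    (F.bun κ).E i j z *ᵥ v = fun _ => F.e κ i j z * v 0 := by
  funext k
  simp [bun_E_eq, Matrix.mulVec, dotProduct]

/-- for `κ = 0`: `t i = E i j • t j` -/
theorem t_eq_E {i j : Fin A.N} {x : X} (hi : x ∈ A.U i) (hj : x ∈ A.U j) :
    F.t i x = (F.bun 0).E i j (A.e i x) 0 0 • F.t j x := by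
  rw [bun_E, neg_zero, zpow_zero, one_mul, (A.e i).left_inv (A.U_sub i hi)]
  exact F.t_eq hi hj

/-! ### the dual frames -/

/-- the dual vector `conj t / |t|^2` -/
def dv (t : EuclideanSpace ℂ ι) : EuclideanSpace ℂ ι :=
  WithLp.toLp 2 fun j => conj (t j) * ((‖t‖ ^ 2 : ℝ) : ℂ)⁻¹

theorem bp_dv (t v : EuclideanSpace ℂ ι) : LB.bp (dv t) v = cfv t v := rfl

theorem act_dv (L : LB X ι) {x : X} {t : EuclideanSpace ℂ ι} (ht : LB.act (L.P x) t = t) :
    LB.act (L.dual.P x) (dv t) = dv t := by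
  ext i
  have h1 : ∀ i, t i = ∑ j, L.P x i j * t j := fun i => by
    conv_lhs => rw [← ht]
    rfl
  have hh : ∀ i j, L.P x j i = conj (L.P x i j) := by
    intro i j
    have h := congrFun (congrFun (L.herm x) j) i
    rw [Matrix.conjTranspose_apply] at h
    exact h.symm
  change ∑ j, (L.P x)ᵀ i j * (dv t) j = (dv t) i
  have h2 : (dv t) i = conj (t i) * ((‖t‖ ^ 2 : ℝ) : ℂ)⁻¹ := rfl
  rw [h2, h1 i, map_sum, Finset.sum_mul]
  refine Finset.sum_congr rfl fun j _ => ?_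
  rw [Matrix.transpose_apply, hh i j, map_mul]
  change conj (L.P x i j) * (conj (t j) * ((‖t‖ ^ 2 : ℝ) : ℂ)⁻¹) = _
  ring

theorem dv_ne {t : EuclideanSpace ℂ ι} (ht : t ≠ 0) : dv t ≠ 0 := by
  classical
  intro h
  have h1 := bp_dv t t
  rw [h, cfv_self ht, LB.bp_zero_left] at h1
  exact zero_ne_one h1

theorem at0_dv {n : WithTop ℕ∞} {t : X → EuclideanSpace ℂ ι} {x : X} (ht : At0 n 0 t x)
    (h0 : t x ≠ 0) : At0 n 0 (fun y => dv (t y)) x := by
  classical
  exact H181.at0_of_comp fun i => H181.at0_cf ht h0 i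

/-- the frames of the dual bundle dual to the given frames -/
def dual : LFr A L.dual (-a) where
  t i x := dv (F.t i x)
  sm i x hx := at0_dv (F.sm i x hx) (F.ne i x hx)
  sec i x hx := act_dv L (F.sec i x hx)
  ne i x hx := dv_ne (F.ne i x hx)
  hol i x hx := by
    set s : X → EuclideanSpace ℂ ι := F.t i with hs
    have hs1 : At0 1 0 s x := (F.sm i x hx).of_le (by simp)
    have hd1 : At0 1 0 (fun y => dv (s y)) x := at0_dv hs1 (F.ne i x hx)
    have hsec := F.sec i x hx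
    have hdsec : LB.act (L.dual.P x) (dv (s x)) = dv (s x) := act_dv L hsec
    -- the pairing is constant
    have h1 : (fun y => LB.bp (s y) (dv (s y))) =ᶠ[𝓝 x] fun _ => (1 : ℂ) := by
      filter_upwards [(A.isOpen_U i).mem_nhds hx] with y hy
      rw [LB.bp_comm, bp_dv, cfv_self (F.ne i y hy)]
    have h2 : dbar0 (0 + 0) (fun y => LB.bp (s y) (dv (s y))) x = 0 := by
      rw [add_zero, dbar0_congr h1]
      exact dbar0_const
    funext k
    have h3 := LB.dbar0_bp (L := L) (a := a) hs1 hd1 hsec hdsec k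
    rw [h2, F.hol i x hx] at h3
    simp only [Pi.zero_apply, LB.bp_zero_left, zero_add] at h3
    have h4 : LB.act (L.dual.P x) (L.dual.db0 (-a) 0 (fun y => dv (s y)) x k) =
        L.dual.db0 (-a) 0 (fun y => dv (s y)) x k := H181.act_db0 hdsec k
    exact (LB.bp_eq_zero L hsec h4 h3.symm).resolve_left (F.ne i x hx)

theorem dual_t (i : Fin A.N) (x : X) : F.dual.t i x = dv (F.t i x) := rfl

theorem dual_g {i j : Fin A.N} {x : X} (hi : x ∈ A.U i) (hj : x ∈ A.U j) :
    F.dual.g i j x = (F.g i j x)⁻¹ := by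
  have h1 := F.dual.t_eq hi hj
  have h2 : LB.bp (F.dual.t i x) (F.t i x) = 1 := by
    rw [dual_t, bp_dv, cfv_self (F.ne i x hi)]
  have h3 : LB.bp (F.dual.t j x) (F.t j x) = 1 := by
    rw [dual_t, bp_dv, cfv_self (F.ne j x hj)]
  rw [h1, F.t_eq hi hj, LB.bp_smul_left, LB.bp_smul_right, h3, mul_one] at h2
  exact eq_inv_of_mul_eq_one_left h2

/-- the bundle of the dual frames with `κ` replaced by `1 - κ` is `K ⊗ (dual bundle)` -/
theorem dual_e (κ : ℤ) {i j : Fin A.N} {z : C2} (hz : z ∈ A.ov i j) :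
    F.dual.e (1 - κ) i j z = ((A.J i j z).det)⁻¹ * (F.e κ i j z)⁻¹ := by
  have hJ := FinAt.J_det_ne hz
  rw [e, e, F.dual_g hz.1.2 hz.2, mul_inv, ← zpow_neg, neg_neg, neg_sub, zpow_sub₀ hJ, zpow_one]
  field_simp

end LFr

end Vale.Agent.P267.H439
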