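import Vale.Agent.P267.H439.DictA

/-!
# P267 (helper439), package DICT for line bundles, part B: the Dolbeault complex of `K^κ ⊗ (L, a)`
is the complex of the bundle `F.bun κ : Bun A 1`

`F.eq0 κ`, `F.eq1 κ`, `F.eq2 κ` (linear isomorphisms), `F.eq1_db0`, `F.eq2_db1`,
`F.h0_eq`, `F.h1_eq`, `F.h2_eq`, `F.chi_eq`.
-/

set_option linter.unusedSectionVars false
set_option linter.unusedVariables false

open scoped Manifold ContDiff ComplexConjugate Topology Matrix
open Set Filter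

noncomputable section

namespace Vale.Agent.P267.H439

open FL RR

variable {X : Type*} [TopologicalSpace X] [ChartedSpace C2 X] [IsManifold 𝓘(ℂ, C2) ω X]
variable {ι : Type} [Fintype ι] [DecidableEq ι]

theorem exists_mem_U (A : FinAt X) (x : X) : ∃ i, x ∈ A.U i := by
  by_contra h
  push Not at h
  have h1 : ∀ i, A.rho i x = 0 := fun i => by
    by_contra h2
    exact h i (A.rho_supp i (subset_tsupport _ h2))
  have h3 := A.rho_sum x
  simp [h1] at h3

/-- a chart of the system around `x` -/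
def idx (A : FinAt X) (x : X) : Fin A.N := (exists_mem_U A x).choose

theorem mem_idx (A : FinAt X) (x : X) : x ∈ A.U (idx A x) := (exists_mem_U A x).choose_spec

theorem point_eq {A : FinAt X} {i : Fin A.N} {z : C2} (hz : z ∈ A.O i) :
    A.e i ((A.e i).symm z) = z := (A.e i).right_inv hz.1

theorem tau_point {A : FinAt X} {i j : Fin A.N} {x : X} (hx : x ∈ A.U i) :
    A.tau i j (A.e i x) = A.e j x := by
  unfold FinAt.tau
  rw [(A.e i).left_inv (A.U_sub i hx)]

theorem J_eq (A : FinAt X) (i j : Fin A.N) (z : C2) :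
    A.J i j z = jacM (A.e i) (A.e j) ((A.e i).symm z) := rfl

namespace LFr

variable {A : FinAt X} {L : LB X ι} {a : X → Fin 2 → ℂ} (F : LFr A L a) {κ : ℤ}

/-! ### the compatibility relations in terms of the functions on `X` -/

theorem rel0 {i j : Fin A.N} {z : C2} (hz : z ∈ A.ov i j) {f f' : X → ℂ} :
    loc0 κ (A.e j) f' (A.tau i j z) = F.e κ i j z * loc0 κ (A.e i) f z ↔
      f' ((A.e i).symm z) = F.g i j ((A.e i).symm z) * f ((A.e i).symm z) := by
  set x := (A.e i).symm z with hx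
  have hxi : x ∈ (A.e i).source := FinAt.symm_mem_source hz.1
  have hxj : x ∈ (A.e j).source := FinAt.symm_mem_source' hz
  have hez : A.e i x = z := point_eq hz.1
  have hJ : (jacM (A.e i) (A.e j) x).det ≠ 0 := FinAt.J_det_ne hz
  have h1 := loc0_change (κ := κ) (A.he i) (A.he j) hxi hxj f'
  have h2 : A.tau i j z = A.e j x := rfl
  have h3 : loc0 κ (A.e j) f' (A.e j x) =
      (jacM (A.e i) (A.e j) x).det ^ (-κ) * loc0 κ (A.e i) f' (A.e i x) := by
    rw [h1, smul_eq_mul, ← mul_assoc, ← zpow_add₀ hJ]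
    simp
  have hz' : (jacM (A.e i) (A.e j) x).det ^ (-κ) ≠ 0 := zpow_ne_zero _ hJ
  rw [h2, h3, e, J_eq, ← hx, hez, mul_assoc, mul_right_inj' hz']
  have h4 : F.g i j x * loc0 κ (A.e i) f z = loc0 κ (A.e i) (fun y => F.g i j y * f y) z := by
    simp only [loc0, ← hx, smul_eq_mul]
    ring
  rw [h4]
  constructor
  · intro h
    rw [← hez] at h
    exact loc0_inj (A.he i) hxi h
  · intro h
    simp only [loc0, ← hx, h]

theorem rel2 {i j : Fin A.N} {z : C2} (hz : z ∈ A.ov i j) {f f' : X → ℂ} :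
    conj (A.J i j z).det * loc2 κ (A.e j) f' (A.tau i j z) =
      F.e κ i j z * loc2 κ (A.e i) f z ↔
      f' ((A.e i).symm z) = F.g i j ((A.e i).symm z) * f ((A.e i).symm z) := by
  set x := (A.e i).symm z with hx
  have hxi : x ∈ (A.e i).source := FinAt.symm_mem_source hz.1
  have hxj : x ∈ (A.e j).source := FinAt.symm_mem_source' hz
  have hez : A.e i x = z := point_eq hz.1
  have hJ : (jacM (A.e i) (A.e j) x).det ≠ 0 := FinAt.J_det_ne hz
  have h1 := loc2_change (κ := κ) (A.he i) (A.he j) hxi hxj f'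
  have h2 : A.tau i j z = A.e j x := rfl
  have h3 : conj (jacM (A.e i) (A.e j) x).det * loc2 κ (A.e j) f' (A.e j x) =
      (jacM (A.e i) (A.e j) x).det ^ (-κ) * loc2 κ (A.e i) f' (A.e i x) := by
    rw [h1, smul_eq_mul, smul_eq_mul, ← mul_assoc _ (_ ^ κ), ← zpow_add₀ hJ]
    simp
  have hz' : (jacM (A.e i) (A.e j) x).det ^ (-κ) ≠ 0 := zpow_ne_zero _ hJ
  rw [h2, J_eq, ← hx, h3, e, J_eq, ← hx, hez, mul_assoc, mul_right_inj' hz']
  have h4 : F.g i j x * loc2 κ (A.e i) f z = loc2 κ (A.e i) (fun y => F.g i j y * f y) z := by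
    simp only [loc2, ← hx, smul_eq_mul]
    ring
  rw [h4]
  constructor
  · intro h
    rw [← hez] at h
    exact loc2_inj (A.he i) hxi h
  · intro h
    simp only [loc2, ← hx, h]

theorem rel1 {i j : Fin A.N} {z : C2} (hz : z ∈ A.ov i j) {f f' : X → Fin 2 → ℂ} :
    (∀ k, ∑ p, conj (A.J i j z p k) * loc1 κ (A.e j) f' (A.tau i j z) p =
      F.e κ i j z * loc1 κ (A.e i) f z k) ↔
      f' ((A.e i).symm z) = fun k => F.g i j ((A.e i).symm z) * f ((A.e i).symm z) k := by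
  set x := (A.e i).symm z with hx
  have hxi : x ∈ (A.e i).source := FinAt.symm_mem_source hz.1
  have hxj : x ∈ (A.e j).source := FinAt.symm_mem_source' hz
  have hez : A.e i x = z := point_eq hz.1
  have hJ : (jacM (A.e i) (A.e j) x).det ≠ 0 := FinAt.J_det_ne hz
  have h2 : A.tau i j z = A.e j x := rfl
  have h3 : ∀ k, ∑ p, conj (jacM (A.e i) (A.e j) x p k) * loc1 κ (A.e j) f' (A.e j x) p =
      (jacM (A.e i) (A.e j) x).det ^ (-κ) * loc1 κ (A.e i) f' (A.e i x) k := by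
    intro k
    rw [loc1_change (κ := κ) (A.he i) (A.he j) hxi hxj f' k, smul_eq_mul, ← mul_assoc (_ ^ (-κ)),
      ← zpow_add₀ hJ]
    simp
  have hz' : (jacM (A.e i) (A.e j) x).det ^ (-κ) ≠ 0 := zpow_ne_zero _ hJ
  have h4 : ∀ k, F.g i j x * loc1 κ (A.e i) f z k =
      loc1 κ (A.e i) (fun y k => F.g i j y * f y k) z k := by
    intro k
    simp only [loc1, ← hx, smul_eq_mul, Fin.sum_univ_two]
    ring
  have h5 : (∀ k, ∑ p, conj (A.J i j z p k) * loc1 κ (A.e j) f' (A.tau i j z) p =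
      F.e κ i j z * loc1 κ (A.e i) f z k) ↔
      ∀ k, loc1 κ (A.e i) f' (A.e i x) k =
        loc1 κ (A.e i) (fun y k => F.g i j y * f y k) (A.e i x) k := by
    refine forall_congr' fun k => ?_
    rw [h2, J_eq, ← hx, h3, e, J_eq, ← hx, mul_assoc, mul_right_inj' hz', h4, hez]
  rw [h5]
  constructor
  · intro h
    exact loc1_inj (A.he i) hxi h
  · intro h k
    simp only [loc1, (A.e i).left_inv hxi, h]

/-! ### coordinates of sections and forms -/

open Classical in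
/-- coordinates of a section of `K^κ ⊗ L` -/
def c0 (κ : ℤ) (s : X → EuclideanSpace ℂ ι) (i : Fin A.N) (z : C2) : Fin 1 → ℂ :=
  if z ∈ A.O i then fun _ => loc0 κ (A.e i) (fun y => cfv (F.t i y) (s y)) z else 0

open Classical in
/-- coordinates of a `(0,1)`-form with values in `K^κ ⊗ L` -/
def c1 (κ : ℤ) (w : X → Fin 2 → EuclideanSpace ℂ ι) (i : Fin A.N) (z : C2) : Fin 2 → Fin 1 → ℂ :=
  if z ∈ A.O i then fun j _ => loc1 κ (A.e i) (fun y k => cfv (F.t i y) (w y k)) z j else 0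

open Classical in
/-- coordinates of a `(0,2)`-form with values in `K^κ ⊗ L` -/
def c2 (κ : ℤ) (b : X → EuclideanSpace ℂ ι) (i : Fin A.N) (z : C2) : Fin 1 → ℂ :=
  if z ∈ A.O i then fun _ => loc2 κ (A.e i) (fun y => cfv (F.t i y) (b y)) z else 0

theorem c0_of {s : X → EuclideanSpace ℂ ι} {i : Fin A.N} {z : C2} (hz : z ∈ A.O i) :
    F.c0 κ s i z = fun _ => loc0 κ (A.e i) (fun y => cfv (F.t i y) (s y)) z := if_pos hz

theorem c1_of {w : X → Fin 2 → EuclideanSpace ℂ ι} {i : Fin A.N} {z : C2} (hz : z ∈ A.O i) :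
    F.c1 κ w i z = fun j _ => loc1 κ (A.e i) (fun y k => cfv (F.t i y) (w y k)) z j := if_pos hz

theorem c2_of {b : X → EuclideanSpace ℂ ι} {i : Fin A.N} {z : C2} (hz : z ∈ A.O i) :
    F.c2 κ b i z = fun _ => loc2 κ (A.e i) (fun y => cfv (F.t i y) (b y)) z := if_pos hz

theorem c0_mem {s : X → EuclideanSpace ℂ ι} (hs : s ∈ A0 L κ) : F.c0 κ s ∈ (F.bun κ).sb0.Sec := by
  refine ⟨fun i => ?_, fun i z hz => if_neg hz, fun i j z hz => ?_⟩
  · have h : ContDiffOn ℝ ∞ (fun z => fun _ : Fin 1 => loc0 κ (A.e i)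
        (fun y => cfv (F.t i y) (s y)) z) (A.O i) := by
      rw [contDiffOn_pi]
      intro _ z hz
      have h1 := (H181.at0_coef0 (F.sm i _ hz.2) (F.ne i _ hz.2) (hs.1.at _)).chart (A.he i)
        (FinAt.symm_mem_source hz)
      rw [point_eq hz] at h1
      exact h1.contDiffWithinAt
    exact h.congr fun z hz => F.c0_of hz
  · change _ = (F.bun κ).E i j z *ᵥ _
    rw [F.c0_of (FinAt.tau_mem_O hz), F.c0_of hz.1, bun_mulVec]
    funext k
    exact (F.rel0 hz).2 (F.cfv_change hz.1.2 hz.2 (hs.2 _))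

theorem c2_mem {b : X → EuclideanSpace ℂ ι} (hb : b ∈ A2 L κ) : F.c2 κ b ∈ (F.bun κ).sb2.Sec := by
  refine ⟨fun i => ?_, fun i z hz => if_neg hz, fun i j z hz => ?_⟩
  · have h : ContDiffOn ℝ ∞ (fun z => fun _ : Fin 1 => loc2 κ (A.e i)
        (fun y => cfv (F.t i y) (b y)) z) (A.O i) := by
      rw [contDiffOn_pi]
      intro _ z hz
      have h1 := (H181.at2_coef0 (F.sm i _ hz.2) (F.ne i _ hz.2) (hb.1.at _)).chart (A.he i)
        (FinAt.symm_mem_source hz)
      rw [point_eq hz] at h1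
      exact h1.contDiffWithinAt
    exact h.congr fun z hz => F.c2_of hz
  · refine (Bun.compat2_iff hz _ _ _).2 ?_
    rw [F.c2_of (FinAt.tau_mem_O hz), F.c2_of hz.1, bun_mulVec]
    funext k
    exact (F.rel2 hz).2 (F.cfv_change hz.1.2 hz.2 (hb.2 _))

theorem c1_mem {w : X → Fin 2 → EuclideanSpace ℂ ι} (hw : w ∈ A1 L κ) :
    F.c1 κ w ∈ (F.bun κ).sb1.Sec := by
  refine ⟨fun i => ?_, fun i z hz => if_neg hz, fun i j z hz => ?_⟩
  · have h : ContDiffOn ℝ ∞ (fun z => fun (p : Fin 2) (_ : Fin 1) => loc1 κ (A.e i)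
        (fun y k => cfv (F.t i y) (w y k)) z p) (A.O i) := by
      rw [contDiffOn_pi]
      intro p
      rw [contDiffOn_pi]
      intro _ z hz
      have h1 := (H181.at1_coef1 (F.sm i _ hz.2) (F.ne i _ hz.2) (hw.1.at _)).chart (A.he i)
        (FinAt.symm_mem_source hz)
      rw [point_eq hz] at h1
      exact (contDiffAt_pi.1 h1 p).contDiffWithinAt
    exact h.congr fun z hz => F.c1_of hz
  · refine (Bun.compat1_iff hz _ _ _).2 fun k => ?_
    rw [F.c1_of (FinAt.tau_mem_O hz), F.c1_of hz.1, bun_mulVec]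
    funext m
    have h1 := (F.rel1 (κ := κ) (f := fun y k => cfv (F.t i y) (w y k))
      (f' := fun y k => cfv (F.t j y) (w y k)) hz).2
      (by funext k; exact F.cfv_change hz.1.2 hz.2 (hw.2 _ k)) k
    simpa only [Finset.sum_apply, Pi.smul_apply, smul_eq_mul] using h1

/-! ### gluing -/

/-- the section with coefficient functions `f i` with respect to the frames -/
def glue0 (f : Fin A.N → X → ℂ) (x : X) : EuclideanSpace ℂ ι := f (idx A x) x • F.t (idx A x) x

theorem glue0_eq {f : Fin A.N → X → ℂ}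
    (hf : ∀ i j x, x ∈ A.U i → x ∈ A.U j → f j x = F.g i j x * f i x) {i : Fin A.N} {x : X}
    (hx : x ∈ A.U i) : F.glue0 f x = f i x • F.t i x := by
  have hj := mem_idx A x
  rw [glue0, hf i (idx A x) x hx hj, F.t_eq hx hj, smul_smul, mul_comm]

theorem glue0_sec (f : Fin A.N → X → ℂ) (x : X) : LB.act (L.P x) (F.glue0 f x) = F.glue0 f x := by
  rw [glue0, LB.act_smul, F.sec _ x (mem_idx A x)]

theorem eventually_eq_glue0 {f : Fin A.N → X → ℂ}
    (hf : ∀ i j x, x ∈ A.U i → x ∈ A.U j → f j x = F.g i j x * f i x) {i : Fin A.N} {x : X}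
    (hx : x ∈ A.U i) : F.glue0 f =ᶠ[𝓝 x] fun y => f i y • F.t i y := by
  filter_upwards [(A.isOpen_U i).mem_nhds hx] with y hy
  exact F.glue0_eq hf hy

theorem glue0_reg0 {f : Fin A.N → X → ℂ}
    (hf : ∀ i j x, x ∈ A.U i → x ∈ A.U j → f j x = F.g i j x * f i x)
    (hr : ∀ i, ∀ x ∈ A.U i, At0 ∞ κ (f i) x) : Reg0 ∞ κ (F.glue0 f) := by
  refine reg0_iff_at.2 fun x => ?_
  have hx := mem_idx A x
  have h1 := (hr _ x hx).smul' (F.sm _ x hx)
  rw [add_zero] at h1
  exact h1.congr (F.eventually_eq_glue0 hf hx)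

theorem glue0_reg2 {f : Fin A.N → X → ℂ}
    (hf : ∀ i j x, x ∈ A.U i → x ∈ A.U j → f j x = F.g i j x * f i x)
    (hr : ∀ i, ∀ x ∈ A.U i, At2 ∞ κ (f i) x) : Reg2 ∞ κ (F.glue0 f) := by
  refine reg2_iff_at.2 fun x => ?_
  have hx := mem_idx A x
  have h1 : At2 ∞ κ (fun y => f (idx A x) y • F.t (idx A x) y) x := by
    have h2 := At2.bilin' (B := ContinuousLinearMap.lsmul ℂ ℂ) (hr _ x hx) (F.sm _ x hx)
    rw [add_zero] at h2
    exact h2
  exact h1.congr (F.eventually_eq_glue0 hf hx)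

/-- the one-form with coefficient forms `f i` with respect to the frames -/
def glue1 (f : Fin A.N → X → Fin 2 → ℂ) (x : X) (k : Fin 2) : EuclideanSpace ℂ ι :=
  f (idx A x) x k • F.t (idx A x) x

theorem glue1_eq {f : Fin A.N → X → Fin 2 → ℂ}
    (hf : ∀ i j x, x ∈ A.U i → x ∈ A.U j → f j x = fun k => F.g i j x * f i x k) {i : Fin A.N}
    {x : X} (hx : x ∈ A.U i) : F.glue1 f x = fun k => f i x k • F.t i x := by
  have hj := mem_idx A x
  funext k
  rw [glue1, hf i (idx A x) x hx hj, F.t_eq hx hj, smul_smul, mul_comm]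

theorem glue1_sec (f : Fin A.N → X → Fin 2 → ℂ) (x : X) (k : Fin 2) :
    LB.act (L.P x) (F.glue1 f x k) = F.glue1 f x k := by
  rw [glue1, LB.act_smul, F.sec _ x (mem_idx A x)]

theorem glue1_reg1 {f : Fin A.N → X → Fin 2 → ℂ}
    (hf : ∀ i j x, x ∈ A.U i → x ∈ A.U j → f j x = fun k => F.g i j x * f i x k)
    (hr : ∀ i, ∀ x ∈ A.U i, At1 ∞ κ (f i) x) : Reg1 ∞ κ (F.glue1 f) := by
  refine reg1_iff_at.2 fun x => ?_
  have hx := mem_idx A x
  have h1 := At1.smul_right' (hr _ x hx) (F.sm _ x hx)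
  rw [add_zero] at h1
  refine h1.congr ?_
  filter_upwards [(A.isOpen_U _).mem_nhds hx] with y hy
  exact F.glue1_eq hf hy

/-! ### surjectivity -/

theorem c0_surj {v : Fin A.N → C2 → Fin 1 → ℂ} (hv : v ∈ (F.bun κ).sb0.Sec) :
    ∃ s ∈ A0 L κ, F.c0 κ s = v := by
  set f : Fin A.N → X → ℂ := fun i => of0 κ (A.e i) (fun z => v i z 0) with hfd
  have hloc : ∀ i, ∀ z ∈ A.O i, loc0 κ (A.e i) (f i) z = v i z 0 := fun i z hz =>
    loc0_of0 (A.he i) hz.1 _
  have hf : ∀ i j x, x ∈ A.U i → x ∈ A.U j → f j x = F.g i j x * f i x := by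
    intro i j x hi hj
    have hz := FinAt.mem_ov hi hj
    have h1 := (F.rel0 (κ := κ) (f := f i) (f' := f j) hz).1 (by
      rw [hloc j _ (FinAt.tau_mem_O hz), hloc i _ hz.1]
      have h2 := hv.2.2 i j _ hz
      have h3 : v j (A.tau i j (A.e i x)) = (F.bun κ).E i j (A.e i x) *ᵥ v i (A.e i x) := h2
      rw [h3, bun_mulVec])
    rwa [(A.e i).left_inv (A.U_sub i hi)] at h1
  have hr : ∀ i, ∀ x ∈ A.U i, At0 ∞ κ (f i) x := by
    intro i x hx
    refine at0_of_chart (A.he i) (A.U_sub i hx) ?_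
    have h1 : ContDiffAt ℝ ∞ (fun z => v i z 0) (A.e i x) :=
      contDiffAt_pi.1 (Bun.Sec_contDiffAt hv (FinAt.mem_O hx)) 0
    refine h1.congr_of_eventuallyEq ?_
    filter_upwards [(A.isOpen_O i).mem_nhds (FinAt.mem_O hx)] with z hz
    exact hloc i z hz
  refine ⟨F.glue0 f, ⟨F.glue0_reg0 hf hr, F.glue0_sec f⟩, ?_⟩
  funext i z
  by_cases hz : z ∈ A.O i
  · rw [F.c0_of hz]
    funext k
    have h1 : loc0 κ (A.e i) (fun y => cfv (F.t i y) (F.glue0 f y)) z = loc0 κ (A.e i) (f i) z := by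
      rw [loc0, loc0, F.glue0_eq hf hz.2, cfv_smul_self _ (F.ne i _ hz.2)]
    rw [h1, hloc i z hz, Subsingleton.elim k 0]
  · rw [hv.2.1 i z hz]
    exact if_neg hz

theorem c2_surj {v : Fin A.N → C2 → Fin 1 → ℂ} (hv : v ∈ (F.bun κ).sb2.Sec) :
    ∃ s ∈ A2 L κ, F.c2 κ s = v := by
  set f : Fin A.N → X → ℂ := fun i => of2 κ (A.e i) (fun z => v i z 0) with hfd
  have hloc : ∀ i, ∀ z ∈ A.O i, loc2 κ (A.e i) (f i) z = v i z 0 := fun i z hz =>
    loc2_of2 (A.he i) hz.1 _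
  have hf : ∀ i j x, x ∈ A.U i → x ∈ A.U j → f j x = F.g i j x * f i x := by
    intro i j x hi hj
    have hz := FinAt.mem_ov hi hj
    have h1 := (F.rel2 (κ := κ) (f := f i) (f' := f j) hz).1 (by
      rw [hloc j _ (FinAt.tau_mem_O hz), hloc i _ hz.1]
      have h2 := (Bun.compat2_iff hz _ _ _).1 (hv.2.2 i j _ hz)
      have h3 := congrFun h2 0
      rw [bun_mulVec] at h3
      exact h3)
    rwa [(A.e i).left_inv (A.U_sub i hi)] at h1
  have hr : ∀ i, ∀ x ∈ A.U i, At2 ∞ κ (f i) x := by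
    intro i x hx
    refine at2_of_chart (A.he i) (A.U_sub i hx) ?_
    have h1 : ContDiffAt ℝ ∞ (fun z => v i z 0) (A.e i x) :=
      contDiffAt_pi.1 (Bun.Sec_contDiffAt hv (FinAt.mem_O hx)) 0
    refine h1.congr_of_eventuallyEq ?_
    filter_upwards [(A.isOpen_O i).mem_nhds (FinAt.mem_O hx)] with z hz
    exact hloc i z hz
  refine ⟨F.glue0 f, ⟨F.glue0_reg2 hf hr, F.glue0_sec f⟩, ?_⟩
  funext i z
  by_cases hz : z ∈ A.O i
  · rw [F.c2_of hz]
    funext k
    have h1 : loc2 κ (A.e i) (fun y => cfv (F.t i y) (F.glue0 f y)) z = loc2 κ (A.e i) (f i) z := by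
      rw [loc2, loc2, F.glue0_eq hf hz.2, cfv_smul_self _ (F.ne i _ hz.2)]
    rw [h1, hloc i z hz, Subsingleton.elim k 0]
  · rw [hv.2.1 i z hz]
    exact if_neg hz

theorem c1_surj {v : Fin A.N → C2 → Fin 2 → Fin 1 → ℂ} (hv : v ∈ (F.bun κ).sb1.Sec) :
    ∃ s ∈ A1 L κ, F.c1 κ s = v := by
  set f : Fin A.N → X → Fin 2 → ℂ := fun i => of1 κ (A.e i) (fun z p => v i z p 0) with hfd
  have hloc : ∀ i, ∀ z ∈ A.O i, ∀ p, loc1 κ (A.e i) (f i) z p = v i z p 0 := fun i z hz p =>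
    loc1_of1 (A.he i) hz.1 _ p
  have hf : ∀ i j x, x ∈ A.U i → x ∈ A.U j → f j x = fun k => F.g i j x * f i x k := by
    intro i j x hi hj
    have hz := FinAt.mem_ov hi hj
    have h1 := (F.rel1 (κ := κ) (f := f i) (f' := f j) hz).1 (by
      intro k
      rw [hloc i _ hz.1]
      have h2 := (Bun.compat1_iff hz _ _ _).1 (hv.2.2 i j _ hz) k
      have h3 := congrFun h2 0
      rw [bun_mulVec] at h3
      simp only [Finset.sum_apply, Pi.smul_apply, smul_eq_mul] at h3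
      rw [← h3]
      exact Finset.sum_congr rfl fun p _ => by rw [hloc j _ (FinAt.tau_mem_O hz)])
    rwa [(A.e i).left_inv (A.U_sub i hi)] at h1
  have hr : ∀ i, ∀ x ∈ A.U i, At1 ∞ κ (f i) x := by
    intro i x hx
    refine at1_of_chart (A.he i) (A.U_sub i hx) ?_
    have h1 : ContDiffAt ℝ ∞ (fun z p => v i z p 0) (A.e i x) := by
      rw [contDiffAt_pi]
      intro p
      exact contDiffAt_pi.1 (contDiffAt_pi.1 (Bun.Sec_contDiffAt hv (FinAt.mem_O hx)) p) 0
    refine h1.congr_of_eventuallyEq ?_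
    filter_upwards [(A.isOpen_O i).mem_nhds (FinAt.mem_O hx)] with z hz
    funext p
    exact hloc i z hz p
  refine ⟨F.glue1 f, ⟨F.glue1_reg1 hf hr, F.glue1_sec f⟩, ?_⟩
  funext i z
  by_cases hz : z ∈ A.O i
  · rw [F.c1_of hz]
    funext p k
    have h1 : loc1 κ (A.e i) (fun y k => cfv (F.t i y) (F.glue1 f y k)) z p =
        loc1 κ (A.e i) (f i) z p := by
      simp only [loc1, F.glue1_eq hf hz.2, cfv_smul_self _ (F.ne i _ hz.2)]
    rw [h1, hloc i z hz, Subsingleton.elim k 0]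
  · rw [hv.2.1 i z hz]
    exact if_neg hz

end LFr

end Vale.Agent.P267.H439
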