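import Vale.Agent.P267.H439.DictB
import Vale.Agent.P267.H983.Coh

/-!
# P267 (helper439), package DICT for line bundles, part C: isomorphism of complexes

`F.eq0 κ : A0 L κ ≃ₗ[ℂ] (F.bun κ).sb0.Sec`, `F.eq1 κ`, `F.eq2 κ`, compatible with `∂̄`
(`F.eq1_db0`, `F.eq2_db1`); dimensions `F.h0_eq`, `F.h1_eq`, `F.h2_eq`, `F.chi_eq`.
-/

set_option linter.unusedSectionVars false
set_option linter.unusedVariables false

open scoped Manifold ContDiff ComplexConjugate Topology Matrix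
open Set Filter Module

noncomputable section

namespace Vale.Agent.P267.H439

open FL RR

variable {X : Type*} [TopologicalSpace X] [ChartedSpace C2 X] [IsManifold 𝓘(ℂ, C2) ω X]
variable {ι : Type} [Fintype ι] [DecidableEq ι]

/-! ### `∂̄` of `(L, a)` with values in the spaces of smooth forms -/

section complex

variable {L : LB X ι} {a : X → Fin 2 → ℂ} (ha : L.IsHol a) (κ : ℤ)

include ha in
theorem db0_mem {s : X → EuclideanSpace ℂ ι} (hs : s ∈ A0 L κ) : L.db0 a κ s ∈ A1 L κ :=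
  ⟨reg1_iff_at.2 fun x => H181.at1_db0 (ha.smooth.at x) (by simp) (hs.1.at x) (by simp),
    fun x k => H181.act_db0 (hs.2 x) k⟩

include ha in
theorem db1_mem {w : X → Fin 2 → EuclideanSpace ℂ ι} (hw : w ∈ A1 L κ) : L.db1 a κ w ∈ A2 L κ :=
  ⟨LB.reg2_db1 ha.smooth hw.1, fun x => H181.act_db1 (hw.2 x)⟩

/-- `∂̄ : A⁰(K^κ ⊗ L) → A¹(K^κ ⊗ L)` -/
def d0L : A0 L κ →ₗ[ℂ] A1 L κ := (D0 L a κ).codRestrict (A1 L κ) fun s => db0_mem ha κ s.2

/-- `∂̄ : A¹(K^κ ⊗ L) → A²(K^κ ⊗ L)` -/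
def d1L : A1 L κ →ₗ[ℂ] A2 L κ := (D1 L a κ).codRestrict (A2 L κ) fun s => db1_mem ha κ s.2

theorem d0L_coe (s : A0 L κ) :
    ((d0L ha κ s : A1 L κ) : X → Fin 2 → EuclideanSpace ℂ ι) = L.db0 a κ s.1 := rfl

theorem d1L_coe (w : A1 L κ) :
    ((d1L ha κ w : A2 L κ) : X → EuclideanSpace ℂ ι) = L.db1 a κ w.1 := rfl

theorem d1L_d0L (s : A0 L κ) : d1L ha κ (d0L ha κ s) = 0 := by
  apply Subtype.ext
  funext x
  exact H181.db1_db0 ha ((s.2.1.at x).of_le H181.two_le_infty)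
    (Eventually.of_forall s.2.2)

theorem h0_hh : RR.h0 L a κ = H983.hh0 (d0L ha κ) := by
  have h1 : LinearMap.ker (d0L ha κ) = LinearMap.ker (D0 L a κ) :=
    LinearMap.ker_codRestrict _ _ _
  rw [RR.h0, H0, H983.hh0, h1]
  exact (LinearEquiv.finrank_eq
    (Submodule.equivMapOfInjective (A0 L κ).subtype (A0 L κ).injective_subtype _)).symm

theorem B1_map : B1 L a κ = (LinearMap.range (d0L ha κ)).map (A1 L κ).subtype := by
  ext w
  constructor
  · rintro ⟨s, rfl⟩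
    exact ⟨d0L ha κ s, ⟨s, rfl⟩, rfl⟩
  · rintro ⟨_, ⟨s, rfl⟩, rfl⟩
    exact ⟨s, rfl⟩

theorem Z1_map : Z1 L a κ = (LinearMap.ker (d1L ha κ)).map (A1 L κ).subtype := by
  rw [Z1, show LinearMap.ker (d1L ha κ) = LinearMap.ker (D1 L a κ) from
    LinearMap.ker_codRestrict _ _ _]

theorem h1_hh : RR.h1 L a κ = H983.hh1 (d0L ha κ) (d1L ha κ) := by
  rw [RR.h1, H983.hh1]
  exact H983.finrank_quot_map _ _ (Z1_map ha κ) (B1_map ha κ)

theorem B2_comap : (B2 L a κ).comap (A2 L κ).subtype = LinearMap.range (d1L ha κ) := by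
  ext w
  constructor
  · rintro ⟨s, hs⟩
    exact ⟨s, Subtype.ext hs⟩
  · rintro ⟨s, rfl⟩
    exact ⟨s, rfl⟩

theorem h2_hh : RR.h2 L a κ = H983.hh2 (d1L ha κ) := by
  rw [RR.h2, H983.hh2]
  exact LinearEquiv.finrank_eq (Submodule.quotEquivOfEq _ _ (B2_comap ha κ))

end complex

namespace LFr

variable {A : FinAt X} {L : LB X ι} {a : X → Fin 2 → ℂ} (F : LFr A L a) (κ : ℤ)

/-! ### linearity and injectivity of the coordinates -/

theorem c0_add (s s' : X → EuclideanSpace ℂ ι) : F.c0 κ (s + s') = F.c0 κ s + F.c0 κ s' := by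
  funext i z
  by_cases hz : z ∈ A.O i
  · rw [Pi.add_apply, Pi.add_apply, F.c0_of hz, F.c0_of hz, F.c0_of hz]
    funext k
    simp only [Pi.add_apply, cfv_add, loc0, smul_add]
  · simp [c0, hz]

theorem c0_smul (c : ℂ) (s : X → EuclideanSpace ℂ ι) : F.c0 κ (c • s) = c • F.c0 κ s := by
  funext i z
  by_cases hz : z ∈ A.O i
  · rw [Pi.smul_apply, Pi.smul_apply, F.c0_of hz, F.c0_of hz]
    funext k
    simp only [Pi.smul_apply, cfv_smul, loc0, smul_eq_mul]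
    ring
  · simp [c0, hz]

theorem c1_add (s s' : X → Fin 2 → EuclideanSpace ℂ ι) :
    F.c1 κ (s + s') = F.c1 κ s + F.c1 κ s' := by
  funext i z
  by_cases hz : z ∈ A.O i
  · rw [Pi.add_apply, Pi.add_apply, F.c1_of hz, F.c1_of hz, F.c1_of hz]
    funext p k
    simp only [Pi.add_apply, cfv_add, loc1, smul_add, Finset.sum_add_distrib]
  · simp [c1, hz]

theorem c1_smul (c : ℂ) (s : X → Fin 2 → EuclideanSpace ℂ ι) :
    F.c1 κ (c • s) = c • F.c1 κ s := by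
  funext i z
  by_cases hz : z ∈ A.O i
  · rw [Pi.smul_apply, Pi.smul_apply, F.c1_of hz, F.c1_of hz]
    funext p k
    simp only [Pi.smul_apply, cfv_smul, loc1, smul_eq_mul, Fin.sum_univ_two]
    ring
  · simp [c1, hz]

theorem c2_add (s s' : X → EuclideanSpace ℂ ι) : F.c2 κ (s + s') = F.c2 κ s + F.c2 κ s' := by
  funext i z
  by_cases hz : z ∈ A.O i
  · rw [Pi.add_apply, Pi.add_apply, F.c2_of hz, F.c2_of hz, F.c2_of hz]
    funext k
    simp only [Pi.add_apply, cfv_add, loc2, smul_add]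
  · simp [c2, hz]

theorem c2_smul (c : ℂ) (s : X → EuclideanSpace ℂ ι) : F.c2 κ (c • s) = c • F.c2 κ s := by
  funext i z
  by_cases hz : z ∈ A.O i
  · rw [Pi.smul_apply, Pi.smul_apply, F.c2_of hz, F.c2_of hz]
    funext k
    simp only [Pi.smul_apply, cfv_smul, loc2, smul_eq_mul]
    ring
  · simp [c2, hz]

theorem cfv_inj {i : Fin A.N} {x : X} (hx : x ∈ A.U i) {v w : EuclideanSpace ℂ ι}
    (hv : LB.act (L.P x) v = v) (hw : LB.act (L.P x) w = w)
    (h : cfv (F.t i x) v = cfv (F.t i x) w) : v = w := by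
  rw [eq_cfv L (F.sec i x hx) (F.ne i x hx) hv, eq_cfv L (F.sec i x hx) (F.ne i x hx) hw, h]

theorem c0_inj {s s' : X → EuclideanSpace ℂ ι} (hs : L.Sec s) (hs' : L.Sec s')
    (h : F.c0 κ s = F.c0 κ s') : s = s' := by
  funext x
  have hx := mem_idx A x
  have h1 := congrFun (congrFun h (idx A x)) (A.e (idx A x) x)
  rw [F.c0_of (FinAt.mem_O hx), F.c0_of (FinAt.mem_O hx)] at h1
  exact F.cfv_inj hx (hs x) (hs' x) (loc0_inj (A.he _) (A.U_sub _ hx) (congrFun h1 0))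

theorem c2_inj {s s' : X → EuclideanSpace ℂ ι} (hs : L.Sec s) (hs' : L.Sec s')
    (h : F.c2 κ s = F.c2 κ s') : s = s' := by
  funext x
  have hx := mem_idx A x
  have h1 := congrFun (congrFun h (idx A x)) (A.e (idx A x) x)
  rw [F.c2_of (FinAt.mem_O hx), F.c2_of (FinAt.mem_O hx)] at h1
  exact F.cfv_inj hx (hs x) (hs' x) (loc2_inj (A.he _) (A.U_sub _ hx) (congrFun h1 0))

theorem c1_inj {s s' : X → Fin 2 → EuclideanSpace ℂ ι} (hs : L.Sec1 s) (hs' : L.Sec1 s')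
    (h : F.c1 κ s = F.c1 κ s') : s = s' := by
  funext x k
  have hx := mem_idx A x
  have h1 := congrFun (congrFun h (idx A x)) (A.e (idx A x) x)
  rw [F.c1_of (FinAt.mem_O hx), F.c1_of (FinAt.mem_O hx)] at h1
  have h2 := loc1_inj (κ := κ) (A.he _) (A.U_sub _ hx)
    (s := fun y k => cfv (F.t (idx A x) y) (s y k))
    (t := fun y k => cfv (F.t (idx A x) y) (s' y k))
    fun i => congrFun (congrFun h1 i) 0
  exact F.cfv_inj hx (hs x k) (hs' x k) (congrFun h2 k)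

/-! ### the isomorphisms -/

/-- `A⁰(K^κ ⊗ L) ≃ A^{0,0}(F.bun κ)` -/
def eq0 : A0 L κ ≃ₗ[ℂ] (F.bun κ).sb0.Sec :=
  LinearEquiv.ofBijective
    { toFun := fun s => ⟨F.c0 κ s.1, F.c0_mem s.2⟩
      map_add' := fun s s' => Subtype.ext (F.c0_add κ _ _)
      map_smul' := fun c s => Subtype.ext (F.c0_smul κ _ _) }
    ⟨fun s s' h => Subtype.ext (F.c0_inj κ s.2.2 s'.2.2 (congrArg Subtype.val h)),
      fun v => by
        obtain ⟨s, hs, h⟩ := F.c0_surj v.2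
        exact ⟨⟨s, hs⟩, Subtype.ext h⟩⟩

/-- `A¹(K^κ ⊗ L) ≃ A^{0,1}(F.bun κ)` -/
def eq1 : A1 L κ ≃ₗ[ℂ] (F.bun κ).sb1.Sec :=
  LinearEquiv.ofBijective
    { toFun := fun s => ⟨F.c1 κ s.1, F.c1_mem s.2⟩
      map_add' := fun s s' => Subtype.ext (F.c1_add κ _ _)
      map_smul' := fun c s => Subtype.ext (F.c1_smul κ _ _) }
    ⟨fun s s' h => Subtype.ext (F.c1_inj κ s.2.2 s'.2.2 (congrArg Subtype.val h)),
      fun v => by
        obtain ⟨s, hs, h⟩ := F.c1_surj v.2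
        exact ⟨⟨s, hs⟩, Subtype.ext h⟩⟩

/-- `A²(K^κ ⊗ L) ≃ A^{0,2}(F.bun κ)` -/
def eq2 : A2 L κ ≃ₗ[ℂ] (F.bun κ).sb2.Sec :=
  LinearEquiv.ofBijective
    { toFun := fun s => ⟨F.c2 κ s.1, F.c2_mem s.2⟩
      map_add' := fun s s' => Subtype.ext (F.c2_add κ _ _)
      map_smul' := fun c s => Subtype.ext (F.c2_smul κ _ _) }
    ⟨fun s s' h => Subtype.ext (F.c2_inj κ s.2.2 s'.2.2 (congrArg Subtype.val h)),
      fun v => by
        obtain ⟨s, hs, h⟩ := F.c2_surj v.2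
        exact ⟨⟨s, hs⟩, Subtype.ext h⟩⟩

theorem eq0_coe (s : A0 L κ) :
    ((F.eq0 κ s : (F.bun κ).sb0.Sec) : Fin A.N → C2 → Fin 1 → ℂ) = F.c0 κ s.1 := rfl

theorem eq1_coe (s : A1 L κ) :
    ((F.eq1 κ s : (F.bun κ).sb1.Sec) : Fin A.N → C2 → Fin 2 → Fin 1 → ℂ) = F.c1 κ s.1 := rfl

theorem eq2_coe (s : A2 L κ) :
    ((F.eq2 κ s : (F.bun κ).sb2.Sec) : Fin A.N → C2 → Fin 1 → ℂ) = F.c2 κ s.1 := rfl

/-! ### compatibility with `∂̄` -/

/-- the coefficient of `∂̄ s` -/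
theorem cfv_db0 {s : X → EuclideanSpace ℂ ι} (hs : s ∈ A0 L κ) {i : Fin A.N} {x : X}
    (hx : x ∈ A.U i) (k : Fin 2) :
    cfv (F.t i x) (L.db0 a κ s x k) = dbar0 κ (fun y => cfv (F.t i y) (s y)) x k := by
  set f : X → ℂ := fun y => cfv (F.t i y) (s y) with hf
  have h1 : s =ᶠ[𝓝 x] fun y => f y • F.t i y := by
    filter_upwards [(A.isOpen_U i).mem_nhds hx] with y hy
    exact eq_cfv L (F.sec i y hy) (F.ne i y hy) (hs.2 y)
  have h2 : At0 1 κ f x :=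
    (H181.at0_coef0 (F.sm i x hx) (F.ne i x hx) (hs.1.at x)).of_le (by simp)
  rw [H181.db0_congr h1, H181.db0_smul h2 ((F.sm i x hx).of_le (by simp)) (F.sec i x hx),
    F.hol i x hx]
  simp only [Pi.zero_apply, smul_zero, add_zero]
  exact cfv_smul_self _ (F.ne i x hx) _

/-- the coefficient of `∂̄ w` -/
theorem cfv_db1 {w : X → Fin 2 → EuclideanSpace ℂ ι} (hw : w ∈ A1 L κ) {i : Fin A.N} {x : X}
    (hx : x ∈ A.U i) :
    cfv (F.t i x) (L.db1 a κ w x) = dbar1 κ (fun y k => cfv (F.t i y) (w y k)) x := by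
  set f : X → Fin 2 → ℂ := fun y k => cfv (F.t i y) (w y k) with hf
  have h1 : w =ᶠ[𝓝 x] fun y k => f y k • F.t i y := by
    filter_upwards [(A.isOpen_U i).mem_nhds hx] with y hy
    funext k
    exact eq_cfv L (F.sec i y hy) (F.ne i y hy) (hw.2 y k)
  have h2 : At1 1 κ f x :=
    (H181.at1_coef1 (F.sm i x hx) (F.ne i x hx) (hw.1.at x)).of_le (by simp)
  rw [H181.db1_congr h1, H181.db1_smul_right h2 ((F.sm i x hx).of_le (by simp)) (F.sec i x hx),
    F.hol i x hx]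
  simp only [Pi.zero_apply, smul_zero, sub_zero]
  exact cfv_smul_self _ (F.ne i x hx) _

theorem eq1_db0 (ha : L.IsHol a) (s : A0 L κ) :
    F.eq1 κ (d0L ha κ s) = (F.bun κ).d0 (F.eq0 κ s) := by
  apply Subtype.ext
  funext i z
  change F.c1 κ (L.db0 a κ s.1) i z = Bun.d0f (F.c0 κ s.1) i z
  by_cases hz : z ∈ A.O i
  · rw [F.c1_of hz, Bun.d0f, if_pos hz]
    set f : X → ℂ := fun y => cfv (F.t i y) (s.1 y) with hf
    have hat : At0 ∞ κ f ((A.e i).symm z) :=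
      H181.at0_coef0 (F.sm i _ hz.2) (F.ne i _ hz.2) (s.2.1.at _)
    have hd : DifferentiableAt ℝ (loc0 κ (A.e i) f) z := by
      have h1 := hat.chart (A.he i) (FinAt.symm_mem_source hz)
      rw [point_eq hz] at h1
      exact h1.differentiableAt (by simp)
    have h1 : (F.c0 κ s.1 i) =ᶠ[𝓝 z] fun y _ => loc0 κ (A.e i) f y := by
      filter_upwards [(A.isOpen_O i).mem_nhds hz] with y hy
      exact F.c0_of hy
    funext j k
    rw [dzb_congr h1, ← Bun.dzb_pi (differentiableAt_pi.2 fun _ => hd)]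
    have h2 := loc1_dbar0 (A.he i) hz.1 hd j
    rw [← h2]
    simp only [loc1, F.cfv_db0 κ s.2 hz.2, hf]
  · rw [Bun.d0f, if_neg hz]
    exact if_neg hz

theorem eq2_db1 (ha : L.IsHol a) (w : A1 L κ) :
    F.eq2 κ (d1L ha κ w) = (F.bun κ).d1 (F.eq1 κ w) := by
  apply Subtype.ext
  funext i z
  change F.c2 κ (L.db1 a κ w.1) i z = Bun.d1f (F.c1 κ w.1) i z
  by_cases hz : z ∈ A.O i
  · rw [F.c2_of hz, Bun.d1f, if_pos hz]
    set f : X → Fin 2 → ℂ := fun y k => cfv (F.t i y) (w.1 y k) with hf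
    have hat : At1 ∞ κ f ((A.e i).symm z) :=
      H181.at1_coef1 (F.sm i _ hz.2) (F.ne i _ hz.2) (w.2.1.at _)
    have hd : DifferentiableAt ℝ (loc1 κ (A.e i) f) z := by
      have h1 := hat.chart (A.he i) (FinAt.symm_mem_source hz)
      rw [point_eq hz] at h1
      exact h1.differentiableAt (by simp)
    have h1 : ∀ p, (fun y => F.c1 κ w.1 i y p) =ᶠ[𝓝 z] fun y _ => loc1 κ (A.e i) f y p := by
      intro p
      filter_upwards [(A.isOpen_O i).mem_nhds hz] with y hy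
      rw [F.c1_of hy]
    have hdp : ∀ p, DifferentiableAt ℝ (fun y => loc1 κ (A.e i) f y p) z := fun p =>
      differentiableAt_pi.1 hd p
    funext k
    rw [dzb_congr (h1 1), dzb_congr (h1 0), Pi.sub_apply,
      ← Bun.dzb_pi (differentiableAt_pi.2 fun _ => hdp 1),
      ← Bun.dzb_pi (differentiableAt_pi.2 fun _ => hdp 0)]
    have h2 := loc2_dbar1 (A.he i) hz.1 hd
    rw [← h2]
    simp only [loc2, F.cfv_db1 κ w.2 hz.2, hf]
  · rw [Bun.d1f, if_neg hz]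
    exact if_neg hz

/-! ### dimensions -/

include F in
theorem h0_eq (ha : L.IsHol a) : RR.h0 L a κ = (F.bun κ).h0 := by
  rw [h0_hh ha κ]
  exact H983.hh0_congr _ _ (F.eq0 κ) (F.eq1 κ) (F.eq1_db0 κ ha)

include F in
theorem h1_eq (ha : L.IsHol a) : RR.h1 L a κ = (F.bun κ).h1 := by
  rw [h1_hh ha κ]
  exact H983.hh1_congr _ _ _ _ (F.eq0 κ) (F.eq1 κ) (F.eq2 κ) (F.eq1_db0 κ ha) (F.eq2_db1 κ ha)

include F in
theorem h2_eq (ha : L.IsHol a) : RR.h2 L a κ = (F.bun κ).h2 := by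
  rw [h2_hh ha κ]
  exact H983.hh2_congr _ _ (F.eq1 κ) (F.eq2 κ) (F.eq2_db1 κ ha)

/-- **The Euler characteristic of `K^κ ⊗ (L, a)` is the one of the bundle `F.bun κ`.** -/
theorem chi_eq (ha : L.IsHol a) : RR.chi L a κ = (F.bun κ).chi := by
  rw [RR.chi, Bun.chi, F.h0_eq κ ha, F.h1_eq κ ha, F.h2_eq κ ha]

end LFr

end Vale.Agent.P267.H439
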