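import Vale.Agent.P267.H439.DictC
import Vale.Agent.P267.H306.Inv

/-!
# P267 (helper439), package DICT for line bundles, part D: existence of finite systems of charts
with holomorphic frames; the duality pairing in coordinates

`exists_finAt`, `exists_lfr`, `exists_lfr2`; `LFr.pair02`, `LFr.pair20`, `LFr.pair11`.
-/

set_option linter.unusedSectionVars false
set_option linter.unusedVariables false

open scoped Manifold ContDiff ComplexConjugate Topology Matrix
open Set Filter Module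

noncomputable section

namespace Vale.Agent.P267.H439

open FL RR

variable {X : Type*} [TopologicalSpace X] [ChartedSpace C2 X] [IsManifold 𝓘(ℂ, C2) ω X]
variable {ι : Type} [Fintype ι] [DecidableEq ι]

/-- **Finite systems of charts with small domains.** -/
theorem exists_finAt [CompactSpace X] [T2Space X] {p : Set X → Prop}
    (h1 : ∀ x : X, ∃ W, IsOpen W ∧ x ∈ W ∧ p W) (h2 : ∀ U W : Set X, U ⊆ W → p W → p U) :
    ∃ A : FinAt X, ∀ i, p (A.U i) := by
  choose W hWo hxW hpW using h1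
  obtain ⟨N, g, ρ, r1, r2, r3, r4, r5⟩ :=
    H306.exists_small_family (isCompact_univ (X := X)) hWo hxW
  exact ⟨{
    N := N
    e := fun i => chartAt C2 (g i)
    he := fun i => chart_mem_atlas C2 (g i)
    U := fun i => (chartAt C2 (g i)).source ∩ W (g i)
    isOpen_U := fun i => (chartAt C2 (g i)).open_source.inter (hWo _)
    U_sub := fun i => inter_subset_left
    rho := ρ
    rho_smooth := fun i => by
      exact H533.rsm_iff.1 (r1 i)
    rho_nonneg := r4
    rho_supp := r3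
    rho_sum := fun x => r5 x (mem_univ x) }, fun i => h2 _ _ inter_subset_right (hpW _)⟩

/-- a holomorphic frame on an open set -/
def HasFr (L : LB X ι) (a : X → Fin 2 → ℂ) (U : Set X) : Prop :=
  ∃ t : X → EuclideanSpace ℂ ι, Reg0 ∞ 0 t ∧ L.Sec t ∧ ∀ x ∈ U, t x ≠ 0 ∧ L.db0 a 0 t x = 0

theorem HasFr.mono {L : LB X ι} {a : X → Fin 2 → ℂ} {U W : Set X} (h : U ⊆ W)
    (hW : HasFr L a W) : HasFr L a U := by
  obtain ⟨t, h1, h2, h3⟩ := hW
  exact ⟨t, h1, h2, fun x hx => h3 x (h hx)⟩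

theorem exists_hasFr [T2Space X] {L : LB X ι} {a : X → Fin 2 → ℂ} (ha : L.IsHol a) (x : X) :
    ∃ W, IsOpen W ∧ x ∈ W ∧ HasFr L a W := by
  obtain ⟨t, h1, h2, h3⟩ := H181.hasFrames ha x
  obtain ⟨W, hW, hWo, hxW⟩ := eventually_nhds_iff.1 h3
  exact ⟨W, hWo, hxW, t, h1, h2, hW⟩

/-- frames on the sets of a system of charts -/
theorem nonempty_lfr {A : FinAt X} {L : LB X ι} {a : X → Fin 2 → ℂ}
    (h : ∀ i, HasFr L a (A.U i)) : Nonempty (LFr A L a) := by
  choose t h1 h2 h3 using h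
  exact ⟨{
    t := t
    sm := fun i x _ => (h1 i).at x
    sec := fun i x _ => h2 i x
    ne := fun i x hx => (h3 i x hx).1
    hol := fun i x hx => (h3 i x hx).2 }⟩

/-- **Existence of a system of charts with holomorphic frames of `(L, a)`**, the domains satisfying
a further local condition `p`. -/
theorem exists_lfr' [CompactSpace X] [T2Space X] {L : LB X ι} {a : X → Fin 2 → ℂ} (ha : L.IsHol a)
    {p : Set X → Prop} (h1 : ∀ x : X, ∃ W, IsOpen W ∧ x ∈ W ∧ p W)
    (h2 : ∀ U W : Set X, U ⊆ W → p W → p U) :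
    ∃ A : FinAt X, Nonempty (LFr A L a) ∧ ∀ i, p (A.U i) := by
  obtain ⟨A, hA⟩ := exists_finAt (p := fun U => HasFr L a U ∧ p U) (fun x => by
    obtain ⟨W, hW, hxW, h⟩ := exists_hasFr ha x
    obtain ⟨W', hW', hxW', h'⟩ := h1 x
    exact ⟨W ∩ W', hW.inter hW', ⟨hxW, hxW'⟩, h.mono inter_subset_left,
      h2 _ _ inter_subset_right h'⟩) fun U W hUW hW => ⟨hW.1.mono hUW, h2 _ _ hUW hW.2⟩
  exact ⟨A, nonempty_lfr fun i => (hA i).1, fun i => (hA i).2⟩

theorem exists_lfr [CompactSpace X] [T2Space X] {L : LB X ι} {a : X → Fin 2 → ℂ}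
    (ha : L.IsHol a) : ∃ A : FinAt X, Nonempty (LFr A L a) := by
  obtain ⟨A, hA, -⟩ := exists_lfr' ha (p := fun _ => True)
    (fun x => ⟨univ, isOpen_univ, mem_univ x, trivial⟩) fun _ _ _ _ => trivial
  exact ⟨A, hA⟩

/-- two bundles at once -/
theorem exists_lfr2 [CompactSpace X] [T2Space X] {L : LB X ι} {a : X → Fin 2 → ℂ}
    (ha : L.IsHol a) {ι' : Type} [Fintype ι'] [DecidableEq ι'] {L' : LB X ι'}
    {a' : X → Fin 2 → ℂ} (ha' : L'.IsHol a') :
    ∃ A : FinAt X, Nonempty (LFr A L a) ∧ Nonempty (LFr A L' a') := by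
  obtain ⟨A, hA, hA'⟩ := exists_lfr' ha (p := fun U => HasFr L' a' U)
    (exists_hasFr ha') fun U W h hW => hW.mono h
  exact ⟨A, hA, nonempty_lfr hA'⟩

/-! ### the trivial bundle -/

/-- the frame `e_{i₀}` of the trivial bundle -/
def trivFr (A : FinAt X) (i₀ : ι) : LFr A (LB.triv (X := X) i₀) 0 where
  t _ _ := EuclideanSpace.single i₀ 1
  sm _ _ _ := at0_const
  sec _ x _ := by
    ext k
    simp only [LB.act, LB.triv]
    by_cases hk : k = i₀
    · subst hk; simp
    · simp [hk, Ne.symm hk]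
  ne _ _ _ := by simp
  hol _ x _ := by
    funext k
    rw [LB.db0, dbar0_const]
    simp [LB.act_zero]

/-! ### the pairing of dual frames -/

namespace LFr

variable {A : FinAt X} {L : LB X ι} {a : X → Fin 2 → ℂ} (F : LFr A L a) {κ : ℤ}

/-- in the fibres: `⟨v, w⟩ = (coefficient of v) (coefficient of w)` -/
theorem bp_eq {i : Fin A.N} {x : X} (hx : x ∈ A.U i) {v w : EuclideanSpace ℂ ι}
    (hv : LB.act (L.P x) v = v) (hw : LB.act (L.dual.P x) w = w) :
    LB.bp v w = cfv (F.t i x) v * cfv (F.dual.t i x) w := by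
  have h1 := eq_cfv L (F.sec i x hx) (F.ne i x hx) hv
  have h2 := eq_cfv L.dual (F.dual.sec i x hx) (F.dual.ne i x hx) hw
  have h3 : LB.bp (F.t i x) (F.dual.t i x) = 1 := by
    rw [LB.bp_comm, dual_t, bp_dv, cfv_self (F.ne i x hx)]
  conv_lhs => rw [h1, h2, LB.bp_smul_left, LB.bp_smul_right, h3, mul_one]

theorem pair02 {s b : X → EuclideanSpace ℂ ι} (hs : L.Sec s) (hb : L.dual.Sec b) {i : Fin A.N}
    {z : C2} (hz : z ∈ A.O i) : loc2 1 (A.e i) (fun x => LB.bp (s x) (b x)) z =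
      F.c0 κ s i z 0 * F.dual.c2 (1 - κ) b i z 0 := by
  have hx := (A.e i).map_target hz.1
  have hJ : (jac (A.e i) ((A.e i).symm z)).det ≠ 0 := jac_det_ne_zero (A.he i) hx
  rw [F.c0_of hz, F.dual.c2_of hz]
  simp only [loc0, loc2, F.bp_eq hz.2 (hs _) (hb _), smul_eq_mul]
  have h1 : (jac (A.e i) ((A.e i).symm z)).det ^ (1 : ℤ) =
      (jac (A.e i) ((A.e i).symm z)).det ^ κ *
        (jac (A.e i) ((A.e i).symm z)).det ^ (1 - κ) := by
    rw [← zpow_add₀ hJ]; congr 1; ring
  rw [h1]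
  ring

theorem pair20 {s b : X → EuclideanSpace ℂ ι} (hs : L.Sec s) (hb : L.dual.Sec b) {i : Fin A.N}
    {z : C2} (hz : z ∈ A.O i) : loc2 1 (A.e i) (fun x => LB.bp (s x) (b x)) z =
      F.c2 κ s i z 0 * F.dual.c0 (1 - κ) b i z 0 := by
  have hx := (A.e i).map_target hz.1
  have hJ : (jac (A.e i) ((A.e i).symm z)).det ≠ 0 := jac_det_ne_zero (A.he i) hx
  rw [F.c2_of hz, F.dual.c0_of hz]
  simp only [loc0, loc2, F.bp_eq hz.2 (hs _) (hb _), smul_eq_mul]
  have h1 : (jac (A.e i) ((A.e i).symm z)).det ^ (1 : ℤ) =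
      (jac (A.e i) ((A.e i).symm z)).det ^ κ *
        (jac (A.e i) ((A.e i).symm z)).det ^ (1 - κ) := by
    rw [← zpow_add₀ hJ]; congr 1; ring
  rw [h1]
  ring

theorem pair11 {s b : X → Fin 2 → EuclideanSpace ℂ ι} (hs : L.Sec1 s) (hb : L.dual.Sec1 b)
    {i : Fin A.N} {z : C2} (hz : z ∈ A.O i) :
    loc2 1 (A.e i) (fun x => LB.bp (s x 0) (b x 1) - LB.bp (s x 1) (b x 0)) z =
      F.c1 κ s i z 0 0 * F.dual.c1 (1 - κ) b i z 1 0 -
        F.c1 κ s i z 1 0 * F.dual.c1 (1 - κ) b i z 0 0 := by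
  have hx := (A.e i).map_target hz.1
  have hJ : (jac (A.e i) ((A.e i).symm z)).det ≠ 0 := jac_det_ne_zero (A.he i) hx
  rw [F.c1_of hz, F.dual.c1_of hz]
  simp only [loc1, loc2, F.bp_eq hz.2 (hs _ _) (hb _ _), smul_eq_mul, Fin.sum_univ_two]
  have h1 : (jac (A.e i) ((A.e i).symm z)).det ^ (1 : ℤ) =
      (jac (A.e i) ((A.e i).symm z)).det ^ κ *
        (jac (A.e i) ((A.e i).symm z)).det ^ (1 - κ) := by
    rw [← zpow_add₀ hJ]; congr 1; ring
  rw [h1, Matrix.det_fin_two (jac (A.e i) ((A.e i).symm z)), map_sub, map_mul, map_mul]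
  ring

end LFr

/-! ### the trivial bundle, the transition matrices -/

theorem trivFr_g (A : FinAt X) (i₀ : ι) (i j : Fin A.N) (x : X) : (trivFr A i₀).g i j x = 1 :=
  cfv_self (t := EuclideanSpace.single i₀ 1) (by simp)

/-- the transition matrices of `K^κ`; for `κ = 0` they are `1` -/
theorem trivFr_E (A : FinAt X) (i₀ : ι) (κ : ℤ) (i j : Fin A.N) (z : C2) :
    ((trivFr A i₀).bun κ).E i j z = ((A.J i j z).det ^ (-κ)) • (1 : Matrix (Fin 1) (Fin 1) ℂ) := by
  ext k l
  rw [LFr.bun_E, trivFr_g, Subsingleton.elim k l]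
  simp

theorem trivFr_E_zero (A : FinAt X) (i₀ : ι) (i j : Fin A.N) (z : C2) :
    ((trivFr A i₀).bun 0).E i j z = 1 := by
  rw [trivFr_E]
  simp

/-! ### the cohomology only depends on the transition matrices on the overlaps -/

section congr

variable {A : FinAt X} {r : ℕ} {B B' : Bun A r}
  (h : ∀ i j, ∀ z ∈ A.ov i j, B.E i j z = B'.E i j z)

include h

theorem sb0_congr : B.sb0.Sec = B'.sb0.Sec := by
  ext u
  refine and_congr_right fun _ => and_congr_right fun _ => forall_congr' fun i =>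
    forall_congr' fun j => forall_congr' fun z => forall_congr' fun hz => ?_
  change _ = B.E i j z *ᵥ u i z ↔ _ = B'.E i j z *ᵥ u i z
  rw [h i j z hz]

theorem sb1_congr : B.sb1.Sec = B'.sb1.Sec := by
  ext u
  refine and_congr_right fun _ => and_congr_right fun _ => forall_congr' fun i =>
    forall_congr' fun j => forall_congr' fun z => forall_congr' fun hz => ?_
  change _ = mL1 (Bun.Cm A i j z) (B.E i j z) (u i z) ↔ _ = mL1 (Bun.Cm A i j z) (B'.E i j z) (u i z)
  rw [h i j z hz]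

theorem sb2_congr : B.sb2.Sec = B'.sb2.Sec := by
  ext u
  refine and_congr_right fun _ => and_congr_right fun _ => forall_congr' fun i =>
    forall_congr' fun j => forall_congr' fun z => forall_congr' fun hz => ?_
  change _ = ((Bun.Cm A i j z).det • mL (B.E i j z)) (u i z) ↔
    _ = ((Bun.Cm A i j z).det • mL (B'.E i j z)) (u i z)
  rw [h i j z hz]

theorem bun_h0_congr : B.h0 = B'.h0 :=
  H983.hh0_congr _ _ (LinearEquiv.ofEq _ _ (sb0_congr h)) (LinearEquiv.ofEq _ _ (sb1_congr h))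
    fun _ => rfl

theorem bun_h1_congr : B.h1 = B'.h1 :=
  H983.hh1_congr _ _ _ _ (LinearEquiv.ofEq _ _ (sb0_congr h)) (LinearEquiv.ofEq _ _ (sb1_congr h))
    (LinearEquiv.ofEq _ _ (sb2_congr h)) (fun _ => rfl) fun _ => rfl

theorem bun_h2_congr : B.h2 = B'.h2 :=
  H983.hh2_congr _ _ (LinearEquiv.ofEq _ _ (sb1_congr h)) (LinearEquiv.ofEq _ _ (sb2_congr h))
    fun _ => rfl

theorem bun_chi_congr : B.chi = B'.chi := by
  rw [Bun.chi, Bun.chi, bun_h0_congr h, bun_h1_congr h, bun_h2_congr h]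

end congr

/-! ### the integral with a finite system of charts -/

open MeasureTheory in
/-- the integral of a smooth `(2,2)`-form is a sum of integrals over the coordinate domains -/
theorem intX_finAt [CompactSpace X] [T2Space X] (A : FinAt X) {b : X → ℂ} (hb : Reg2 ∞ 1 b) :
    intX b = 4 * ∑ i, ∫ z, (A.r i z : ℂ) * loc2 1 (A.e i) b z := by
  have hcs : ∀ (f : X → ℝ), HasCompactSupport f := fun f => (isClosed_tsupport f).isCompact
  have hcb : HasCompactSupport b := (isClosed_tsupport b).isCompact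
  have hfam : H533.IsFam (tsupport b) A.e A.rho :=
    ⟨A.he, fun i => (H533.rsm_iff.2 (A.rho_smooth i)).continuous, fun i => hcs _,
      fun i => (A.rho_supp i).trans (A.U_sub i), fun x _ => A.rho_sum x⟩
  rw [H533.intX_eq_sum hb.locInt hcb hfam, Finset.mul_sum]
  refine Finset.sum_congr rfl fun i _ => ?_
  have h0 : ∫ z in (A.e i).target, 4 * ((A.r i z : ℂ) * loc2 1 (A.e i) b z) =
      ∫ z, 4 * ((A.r i z : ℂ) * loc2 1 (A.e i) b z) := by
    refine setIntegral_eq_integral_of_forall_compl_eq_zero fun z hz => ?_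
    have h1 : A.r i z = 0 := if_neg fun h => hz h.1
    simp [h1]
  rw [H533.piece, ← integral_const_mul, ← h0]
  · refine setIntegral_congr_fun (A.e i).open_target.measurableSet fun z hz => ?_
    have h1 : A.r i z = A.rho i ((A.e i).symm z) := by
      by_cases hz' : z ∈ A.O i
      · exact if_pos hz'
      · have h2 : (A.e i).symm z ∉ A.U i := fun h => hz' ⟨hz, h⟩
        have h3 : A.rho i ((A.e i).symm z) = 0 := by
          by_contra h4
          exact h2 (A.rho_supp i (subset_tsupport _ h4))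
        rw [h3]
        exact if_neg hz'
    simp only [h1]
    ring

end Vale.Agent.P267.H439
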