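import Vale.Agent.P267.H439.DictD
import Vale.Agent.P267.H439.FinCoh
import Vale.Agent.P267.H983.SerMain
import Vale.Agent.P267.H399.LBCurv

/-!
# P267 (helper439): Serre duality and finiteness for line bundles in the language of forms, part 1

`LFr.sd κ : SD (F.bun κ) (F.dual.bun (1-κ)) 1`; the pairings of 983 are integrals
(`LFr.pr0_eq`, `LFr.pr1_eq`, `LFr.pr2_eq`); transfer of finite-dimensionality
(`LFr.finCoh`, `finite_of_finCoh`).
-/

set_option linter.unusedSectionVars false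
set_option linter.unusedVariables false

open scoped Manifold ContDiff ComplexConjugate Topology Matrix
open Set Filter Module

noncomputable section

namespace Vale.Agent.P267.H439

open FL RR

variable {X : Type*} [TopologicalSpace X] [ChartedSpace C2 X] [IsManifold 𝓘(ℂ, C2) ω X]
variable {ι : Type} [Fintype ι] [DecidableEq ι]

/-- finite-dimensional cohomology of `K^κ ⊗ (L, a)` in the form used in `FiniteStmt` -/
theorem finite_of_finCoh {L : LB X ι} {a : X → Fin 2 → ℂ} (ha : L.IsHol a) (κ : ℤ)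
    (h : FinCoh (d0L ha κ) (d1L ha κ)) :
    FiniteDimensional ℂ (H0 L a κ) ∧ FiniteDimensional ℂ (H1 L a κ) ∧
      FiniteDimensional ℂ (H2 L a κ) := by
  have hk : LinearMap.ker (d0L ha κ) = LinearMap.ker (D0 L a κ) :=
    LinearMap.ker_codRestrict _ _ _
  refine ⟨?_, ?_, ?_⟩
  · rw [H0, ← hk]
    exact finite_map_sub h.f0
  · exact finite_quot_map_sub _ _ (Z1_map ha κ) (B1_map ha κ) h.f1
  · exact finite_quot_congr (B2_comap ha κ) h.f2

namespace LFr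

variable {A : FinAt X} {L : LB X ι} {a : X → Fin 2 → ℂ} (F : LFr A L a) (κ : ℤ)

/-! ### the dual pair of bundles -/

/-- the frames and the dual frames give a dual pair of bundles -/
theorem sd : H983.SD (F.bun κ) (F.dual.bun (1 - κ)) 1 := by
  refine ⟨by simp, fun i j z hz => ?_⟩
  have hJ := FinAt.J_det_ne hz
  have he : F.e κ i j z ≠ 0 := by
    rw [e]
    exact mul_ne_zero (zpow_ne_zero _ hJ) (F.g_ne hz.1.2 hz.2)
  ext k l
  rw [mul_one, Matrix.smul_apply, Matrix.mul_apply]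
  simp only [bun_E_eq, Matrix.transpose_apply, Matrix.of_apply, Fin.sum_univ_one, smul_eq_mul]
  rw [F.dual_e κ hz, Subsingleton.elim k l, Matrix.one_apply_eq]
  field_simp

section pairing

variable [CompactSpace X] [T2Space X]

omit [CompactSpace X] [T2Space X] in
theorem reg2_bp {s b : X → EuclideanSpace ℂ ι} (hs : Reg0 ∞ κ s) (hb : Reg2 ∞ (1 - κ) b) :
    Reg2 ∞ 1 fun x => LB.bp (s x) (b x) := by
  have h := fun x => LB.at2_bp (hs.at x) (hb.at x)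
  rw [show κ + (1 - κ) = 1 by ring] at h
  exact reg2_iff_at.2 h

omit [CompactSpace X] [T2Space X] in
theorem reg2_bp' {s b : X → EuclideanSpace ℂ ι} (hs : Reg2 ∞ κ s) (hb : Reg0 ∞ (1 - κ) b) :
    Reg2 ∞ 1 fun x => LB.bp (s x) (b x) := by
  have h := fun x => LB.at2_bp' (hs.at x) (hb.at x)
  rw [show κ + (1 - κ) = 1 by ring] at h
  exact reg2_iff_at.2 h

omit [CompactSpace X] [T2Space X] in
theorem reg2_bp11 {s b : X → Fin 2 → EuclideanSpace ℂ ι} (hs : Reg1 ∞ κ s)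
    (hb : Reg1 ∞ (1 - κ) b) :
    Reg2 ∞ 1 fun x => LB.bp (s x 0) (b x 1) - LB.bp (s x 1) (b x 0) := by
  have h := fun x => LB.at2_bp11 (hs.at x) (hb.at x)
  rw [show κ + (1 - κ) = 1 by ring] at h
  exact reg2_iff_at.2 h

open MeasureTheory in
theorem pr0_eq (s : A0 L κ) (b : A2 L.dual (1 - κ)) :
    intX (fun x => LB.bp (s.1 x) (b.1 x)) =
      4 * (F.sd κ).dp0.pr (F.eq0 κ s).1 (F.dual.eq2 (1 - κ) b).1 := by
  rw [intX_finAt A (reg2_bp κ s.2.1 b.2.1), H983.DP.pr_def]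
  congr 1
  refine Finset.sum_congr rfl fun i _ => integral_congr_ae (Eventually.of_forall fun z => ?_)
  by_cases hz : z ∈ A.O i
  · simp only [F.pair02 (κ := κ) s.2.2 b.2.2 hz]
    congr 1
    change _ = H983.β0 1 (F.c0 κ s.1 i z) (F.dual.c2 (1 - κ) b.1 i z)
    rw [H983.β0_apply, Matrix.one_mulVec]
    simp [dotProduct]
  · have h0 : A.r i z = 0 := H983.r_notMem hz
    simp [h0]

open MeasureTheory in
theorem pr2_eq (s : A2 L κ) (b : A0 L.dual (1 - κ)) :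
    intX (fun x => LB.bp (s.1 x) (b.1 x)) =
      4 * (F.sd κ).dp2.pr (F.eq2 κ s).1 (F.dual.eq0 (1 - κ) b).1 := by
  rw [intX_finAt A (reg2_bp' κ s.2.1 b.2.1), H983.DP.pr_def]
  congr 1
  refine Finset.sum_congr rfl fun i _ => integral_congr_ae (Eventually.of_forall fun z => ?_)
  by_cases hz : z ∈ A.O i
  · simp only [F.pair20 (κ := κ) s.2.2 b.2.2 hz]
    congr 1
    change _ = H983.β0 1 (F.c2 κ s.1 i z) (F.dual.c0 (1 - κ) b.1 i z)
    rw [H983.β0_apply, Matrix.one_mulVec]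
    simp [dotProduct]
  · have h0 : A.r i z = 0 := H983.r_notMem hz
    simp [h0]

open MeasureTheory in
theorem pr1_eq (s : A1 L κ) (b : A1 L.dual (1 - κ)) :
    intX (fun x => LB.bp (s.1 x 0) (b.1 x 1) - LB.bp (s.1 x 1) (b.1 x 0)) =
      4 * (F.sd κ).dp1.pr (F.eq1 κ s).1 (F.dual.eq1 (1 - κ) b).1 := by
  rw [intX_finAt A (reg2_bp11 κ s.2.1 b.2.1), H983.DP.pr_def]
  congr 1
  refine Finset.sum_congr rfl fun i _ => integral_congr_ae (Eventually.of_forall fun z => ?_)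
  by_cases hz : z ∈ A.O i
  · simp only [F.pair11 (κ := κ) s.2.2 b.2.2 hz]
    congr 1
    change _ = H983.β1 1 (F.c1 κ s.1 i z) (F.dual.c1 (1 - κ) b.1 i z)
    rw [H983.β1_apply, H983.β0_apply, H983.β0_apply, Matrix.one_mulVec, Matrix.one_mulVec]
    simp [dotProduct]
  · have h0 : A.r i z = 0 := H983.r_notMem hz
    simp [h0]

end pairing

/-! ### finite-dimensionality -/

include F in
/-- transfer of finite-dimensionality from the bundle -/
theorem finCoh (ha : L.IsHol a) (h : FinCoh (F.bun κ).d0 (F.bun κ).d1) :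
    FinCoh (d0L ha κ) (d1L ha κ) :=
  h.congr (F.eq0 κ) (F.eq1 κ) (F.eq2 κ) (F.eq1_db0 κ ha) (F.eq2_db1 κ ha)

/-! ### Stokes -/

section stokes

variable [CompactSpace X] [T2Space X]

include F in
theorem stokes01' (ha : L.IsHol a) (ha' : L.dual.IsHol (-a)) (s : A0 L κ)
    (v : A1 L.dual (1 - κ)) :
    intX (fun x => LB.bp (L.db0 a κ s.1 x 0) (v.1 x 1) - LB.bp (L.db0 a κ s.1 x 1) (v.1 x 0)) =
      -intX (fun x => LB.bp (s.1 x) (L.dual.db1 (-a) (1 - κ) v.1 x)) := by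
  have h1 := F.pr1_eq κ (d0L ha κ s) v
  have h2 := F.pr0_eq κ s (d1L ha' (1 - κ) v)
  have h3 := (F.sd κ).stokes01 (F.eq0 κ s) (F.dual.eq1 (1 - κ) v)
  rw [F.eq1_db0 κ ha] at h1
  rw [F.dual.eq2_db1 (1 - κ) ha'] at h2
  rw [h3] at h1
  rw [show (fun x => LB.bp (s.1 x) (L.dual.db1 (-a) (1 - κ) v.1 x)) =
    fun x => LB.bp (s.1 x) ((d1L ha' (1 - κ) v).1 x) from rfl, h2]
  rw [← mul_neg]
  exact h1

end stokes

end LFr

/-! ### Serre duality and finiteness from the analysis on the bundles -/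

/-- the analytic input for one bundle -/
structure AnBun {A : FinAt X} {r : ℕ} (B : Bun A r) : Prop where
  ps : Nonempty (PS B)
  fr1 : H983.FR1 B
  fr2 : H983.FR2 B
  fin : FinCoh B.d0 B.d1

variable (X) in
/-- the analytic input for all bundles on `X` -/
def AnX : Prop := ∀ (A : FinAt X) (r : ℕ) (B : Bun A r), AnBun B

section main

variable [CompactSpace X] [T2Space X] {L : LB X ι} {a : X → Fin 2 → ℂ}

/-- **Finiteness.** -/
theorem finiteStmt (hA : AnX X) : FiniteStmt X := by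
  intro ι _ _ L a ha κ
  obtain ⟨A, ⟨F⟩⟩ := exists_lfr ha
  exact finite_of_finCoh ha κ (F.finCoh κ ha (hA A 1 (F.bun κ)).fin)

/-- **Serre duality in degree 2**, for forms: a `(0,2)`-form with values in `K^κ ⊗ L` is
`∂̄`-exact iff it is orthogonal to the holomorphic sections of `K^{1-κ} ⊗ L^*`. -/
theorem serre2_fl (hA : AnX X) (ha : L.IsHol a) (ha' : L.dual.IsHol (-a)) (κ : ℤ)
    {b : X → EuclideanSpace ℂ ι} (hb : b ∈ A2 L κ) :
    (∃ w ∈ A1 L κ, L.db1 a κ w = b) ↔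
      ∀ η ∈ A0 L.dual (1 - κ), L.dual.db0 (-a) (1 - κ) η = 0 →
        intX (fun x => LB.bp (b x) (η x)) = 0 := by
  obtain ⟨A, ⟨F⟩⟩ := exists_lfr ha
  obtain ⟨P⟩ := (hA A 1 (F.bun κ)).ps
  have key := (F.sd κ).sl2 P (hA A 1 (F.bun κ)).fr2 (F.eq2 κ ⟨b, hb⟩)
  have h1 : (∃ w ∈ A1 L κ, L.db1 a κ w = b) ↔ ∃ w, (F.bun κ).d1 w = F.eq2 κ ⟨b, hb⟩ := by
    constructor
    · rintro ⟨w, hw, h⟩
      refine ⟨F.eq1 κ ⟨w, hw⟩, ?_⟩
      rw [← F.eq2_db1 κ ha]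
      exact congrArg _ (Subtype.ext h)
    · rintro ⟨v, hv⟩
      refine ⟨((F.eq1 κ).symm v).1, ((F.eq1 κ).symm v).2, ?_⟩
      have h2 : F.eq2 κ (d1L ha κ ((F.eq1 κ).symm v)) = F.eq2 κ ⟨b, hb⟩ := by
        rw [F.eq2_db1 κ ha, LinearEquiv.apply_symm_apply, hv]
      exact congrArg Subtype.val ((F.eq2 κ).injective h2)
  rw [h1, key]
  constructor
  · intro h η hη h0
    have h2 := F.pr2_eq κ ⟨b, hb⟩ ⟨η, hη⟩
    rw [h2, h (F.dual.eq0 (1 - κ) ⟨η, hη⟩) ?_, mul_zero]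
    rw [← F.dual.eq1_db0 (1 - κ) ha']
    rw [show d0L ha' (1 - κ) ⟨η, hη⟩ = 0 from Subtype.ext h0, map_zero]
  · intro h η hη
    obtain ⟨s, rfl⟩ := (F.dual.eq0 (1 - κ)).surjective η
    have h0 : d0L ha' (1 - κ) s = 0 := by
      rw [← F.dual.eq1_db0 (1 - κ) ha'] at hη
      exact (F.dual.eq1 (1 - κ)).injective (by rw [hη, map_zero])
    have h2 := h s.1 s.2 (congrArg Subtype.val h0)
    rw [F.pr2_eq κ ⟨b, hb⟩ s] at h2
    exact (mul_eq_zero.1 h2).resolve_left (by norm_num)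

/-- **Serre duality in degree 1**, for forms: a `∂̄`-closed `(0,1)`-form with values in
`K^κ ⊗ L` is exact iff it is orthogonal to the closed `(0,1)`-forms with values in
`K^{1-κ} ⊗ L^*`. -/
theorem serre1_fl (hA : AnX X) (ha : L.IsHol a) (ha' : L.dual.IsHol (-a)) (κ : ℤ)
    {w : X → Fin 2 → EuclideanSpace ℂ ι} (hw : w ∈ A1 L κ) (hc : L.db1 a κ w = 0) :
    (∃ s ∈ A0 L κ, L.db0 a κ s = w) ↔
      ∀ v ∈ A1 L.dual (1 - κ), L.dual.db1 (-a) (1 - κ) v = 0 →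
        intX (fun x => LB.bp (w x 0) (v x 1) - LB.bp (w x 1) (v x 0)) = 0 := by
  obtain ⟨A, ⟨F⟩⟩ := exists_lfr ha
  obtain ⟨P⟩ := (hA A 1 (F.bun κ)).ps
  have hc' : (F.bun κ).d1 (F.eq1 κ ⟨w, hw⟩) = 0 := by
    rw [← F.eq2_db1 κ ha, show d1L ha κ ⟨w, hw⟩ = 0 from Subtype.ext hc, map_zero]
  have key := (F.sd κ).sl1 P (hA A 1 (F.bun κ)).fr1 (F.eq1 κ ⟨w, hw⟩) hc'
  have h1 : (∃ s ∈ A0 L κ, L.db0 a κ s = w) ↔ ∃ u, (F.bun κ).d0 u = F.eq1 κ ⟨w, hw⟩ := by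
    constructor
    · rintro ⟨s, hs, h⟩
      refine ⟨F.eq0 κ ⟨s, hs⟩, ?_⟩
      rw [← F.eq1_db0 κ ha]
      exact congrArg _ (Subtype.ext h)
    · rintro ⟨v, hv⟩
      refine ⟨((F.eq0 κ).symm v).1, ((F.eq0 κ).symm v).2, ?_⟩
      have h2 : F.eq1 κ (d0L ha κ ((F.eq0 κ).symm v)) = F.eq1 κ ⟨w, hw⟩ := by
        rw [F.eq1_db0 κ ha, LinearEquiv.apply_symm_apply, hv]
      exact congrArg Subtype.val ((F.eq1 κ).injective h2)
  rw [h1, key]
  constructor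
  · intro h v hv h0
    have h2 := F.pr1_eq κ ⟨w, hw⟩ ⟨v, hv⟩
    rw [h2, h (F.dual.eq1 (1 - κ) ⟨v, hv⟩) ?_, mul_zero]
    rw [← F.dual.eq2_db1 (1 - κ) ha']
    rw [show d1L ha' (1 - κ) ⟨v, hv⟩ = 0 from Subtype.ext h0, map_zero]
  · intro h η hη
    obtain ⟨s, rfl⟩ := (F.dual.eq1 (1 - κ)).surjective η
    have h0 : d1L ha' (1 - κ) s = 0 := by
      rw [← F.dual.eq2_db1 (1 - κ) ha'] at hη
      exact (F.dual.eq2 (1 - κ)).injective (by rw [hη, map_zero])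
    have h2 := h s.1 s.2 (congrArg Subtype.val h0)
    rw [F.pr1_eq κ ⟨w, hw⟩ s] at h2
    exact (mul_eq_zero.1 h2).resolve_left (by norm_num)

/-- **Serre duality, dimensions.** -/
theorem serre_dims (hA : AnX X) (ha : L.IsHol a) (ha' : L.dual.IsHol (-a)) (κ : ℤ) :
    RR.h0 L a κ = RR.h2 L.dual (-a) (1 - κ) ∧ RR.h1 L a κ = RR.h1 L.dual (-a) (1 - κ) ∧
      RR.h2 L a κ = RR.h0 L.dual (-a) (1 - κ) := by
  obtain ⟨A, ⟨F⟩⟩ := exists_lfr ha
  have h1 := hA A 1 (F.bun κ)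
  have h2 := hA A 1 (F.dual.bun (1 - κ))
  obtain ⟨P⟩ := h1.ps
  obtain ⟨P'⟩ := h2.ps
  rw [F.h0_eq κ ha, F.h1_eq κ ha, F.h2_eq κ ha, F.dual.h0_eq (1 - κ) ha',
    F.dual.h1_eq (1 - κ) ha', F.dual.h2_eq (1 - κ) ha']
  exact ⟨(F.sd κ).h0_eq_h2 P' h2.fr2, (F.sd κ).h1_eq_h1 P h1.fr1 P' h2.fr1,
    (F.sd κ).h2_eq_h0 P h1.fr2⟩

/-- **Serre duality** (the statement of `H221/Out.lean`). -/
theorem serreStmt (hA : AnX X) : SerreStmt X := by
  intro ι _ _ L a ha κ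
  exact serre_dims hA ha ha.dual κ

end main

end Vale.Agent.P267.H439
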