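import Vale.Agent.P267.H983.FrOf
import Vale.Agent.P267.H439.SerreFL

/-!
# P267 (helper439), package RR: from the parametrix `PS B` to the Banach complex of helper285

`isCompactOperator_bop`; `exists_bcplx (P : PS B)`; `fr1`, `fr2`, `finCoh_of_ps`, `anBun`.
-/

set_option linter.unusedSectionVars false
set_option linter.unusedVariables false

open scoped Manifold ContDiff ComplexConjugate Topology Matrix Pointwise
open Set Filter Module MeasureTheory

noncomputable section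

namespace Vale.Agent.P267.H439

open FL RR H285 H221

/-! ### kernel operators are compact -/

section compact

variable {X : Type*} [TopologicalSpace X] [CompactSpace X] [T2Space X]
  [SecondCountableTopology X] [MeasurableSpace X] [BorelSpace X]
variable (μ : Measure X) [IsFiniteMeasure μ]
variable {U : Type*} [NormedAddCommGroup U] [NormedSpace ℂ U] [FiniteDimensional ℂ U]
variable {B : Type*} [NormedAddCommGroup B] [NormedSpace ℂ B] [CompleteSpace B]

theorem isCompactOperator_bop (κ : C(X, U →L[ℂ] B)) : IsCompactOperator (bop μ κ) := by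
  have hprop : ProperSpace U := FiniteDimensional.proper ℂ U
  set K : Set B := (fun p : X × U => κ p.1 p.2) '' (univ ×ˢ Metric.closedBall (0 : U) 1) with hK
  have hKc : IsCompact K := by
    refine (isCompact_univ.prod (isCompact_closedBall (0 : U) 1)).image ?_
    fun_prop
  set S : Set B := closure (convexHull ℝ K) with hS
  have hSc : IsCompact S := by
    exact isCompact_iff_totallyBounded_isComplete.2
      ⟨(totallyBounded_convexHull.2 hKc.totallyBounded).closure, isClosed_closure.isComplete⟩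
  have hconv : Convex ℝ S := (convex_convexHull ℝ K).closure
  have hu1 : IsCompact ({0} ∪ μ.real univ • S) := isCompact_singleton.union (hSc.smul _)
  refine (isCompactOperator_iff_image_closedBall_subset_compact (r := 1)
    (bop μ κ : C(X, U) →ₗ[ℂ] B) one_pos).2 ⟨_, hu1, ?_⟩
  rintro _ ⟨u, hu, rfl⟩
  change bop μ κ u ∈ _
  rw [bop_apply]
  by_cases hμ : μ = 0
  · left
    rw [hμ]
    simp
  · right
    have : NeZero μ := ⟨hμ⟩
    have hmem : ∀ y, κ y (u y) ∈ S := by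
      intro y
      refine subset_closure (subset_convexHull ℝ K ⟨(y, u y), ⟨mem_univ _, ?_⟩, rfl⟩)
      rw [Metric.mem_closedBall, dist_zero_right] at hu ⊢
      exact (u.norm_coe_le_norm y).trans hu
    have hav : ⨍ y, κ y (u y) ∂μ ∈ S :=
      hconv.average_mem isClosed_closure (Eventually.of_forall hmem)
        (integ_cont μ (by fun_prop))
    rw [← measure_smul_average μ fun y => κ y (u y)]
    exact smul_mem_smul_set hav

end compact

variable {X : Type*} [TopologicalSpace X] [ChartedSpace C2 X] {A : FinAt X}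

/-! ### the kernel with the weight -/

section weight

variable {V : Type} [NormedAddCommGroup V] [NormedSpace ℂ V] {S : SB A V}

/-- the kernel `r_b(w) k_ab(z, w)` -/
def wKer (k : Kern S) : KW S V where
  k a b z w := (A.r b w : ℂ) • k.k a b z w
  smooth a b v := by
    have h1 : ContDiffOn ℝ ∞ (fun p : C2 × C2 => (A.r b p.2 : ℂ)) (A.O a ×ˢ A.O b) := by
      have h2 : ContDiffOn ℝ ∞ (fun w : C2 => (A.r b w : ℂ)) (A.O b) :=
        Complex.ofRealCLM.contDiff.comp_contDiffOn (FinAt.r_contDiffOn b)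
      exact h2.comp contDiff_snd.contDiffOn fun p hp => hp.2
    exact h1.smul (k.smooth a b v)
  compat a a' b z hz w hw v := by
    change (A.r b w : ℂ) • k.k a' b (A.tau a a' z) w v = S.T a a' z ((A.r b w : ℂ) • k.k a b z w v)
    rw [k.compat a a' b z hz w hw v, map_smul]

variable [CompactSpace X] [FiniteDimensional ℂ V] [CompleteSpace V]

theorem wKer_app (k : Kern S) (u : S.Sec) : ((wKer k).app (S.res u)).1 = k.op u.1 := by
  funext a z
  by_cases hz : z ∈ A.O a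
  · rw [KW.app_apply _ _ hz, Kern.op, if_pos hz]
    have hc := (wKer k).continuous_app_int hz (S.res u)
    rw [FinAt.integral_lam A hc (fun b w => (A.r b w : ℂ) • k.k a b z w (u.1 b w))
      (fun b w hw => rfl)]
    refine Finset.sum_congr rfl fun b _ => ?_
    refine setIntegral_eq_integral_of_forall_compl_eq_zero fun w hw => ?_
    rw [FinAt.r_zero hw]
    simp
  · rw [((wKer k).app (S.res u)).2.2.1 a z hz, Kern.op, if_neg hz]

/-- the operator of a smooth kernel on the Banach space of continuous sections -/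
def rOp (k : Kern S) : S.Bn →L[ℂ] S.Bn := (bop A.lam (wKer k).ker).comp S.j

theorem rOp_apply (k : Kern S) (x : S.Bn) : rOp k x = S.i ((wKer k).app (S.j x)) :=
  (wKer k).bop_ker _

theorem rOp_i (k : Kern S) (u : S.Sec) {v : S.Sec} (hv : v.1 = k.op u.1) :
    S.i v = rOp k (S.i u) := by
  rw [rOp_apply, SB.j_i]
  congr 1
  exact Subtype.ext (hv.trans (wKer_app k u).symm)

theorem rOp_compact (k : Kern S) : IsCompactOperator (rOp k) :=
  (isCompactOperator_bop A.lam (wKer k).ker).comp_clm S.j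

theorem reg_rOp (k : Kern S) (RA : S.Sec →ₗ[ℂ] S.Sec) (h : ∀ u, (RA u).1 = k.op u.1) :
    Reg S.i (rOp k) RA where
  inj := S.i_injective
  cpt := rOp_compact k
  comm u := rOp_i k u (h u)
  reg x := by
    rintro ⟨u, hu⟩
    refine ⟨u + (wKer k).app (S.j x), ?_⟩
    rw [map_add, hu, rOp_apply]
    exact sub_add_cancel _ _

end weight

/-! ### extension of bounded operators -/

section ext

variable [CompactSpace X] {V W : Type} [NormedAddCommGroup V] [NormedSpace ℂ V]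
  [NormedAddCommGroup W] [NormedSpace ℂ W] [CompleteSpace W] {S : SB A V} {S' : SB A W}

theorem norm_i_le {u : S.Sec} {M : ℝ} (hM : 0 ≤ M) (h : ∀ a, ∀ z ∈ A.K a, ‖u.1 a z‖ ≤ M) :
    ‖S.i u‖ ≤ M := by
  change ‖S.res u‖ ≤ M
  rw [ContinuousMap.norm_le _ hM]
  intro y
  exact h y.1.1 y.1.2 y.2

theorem norm_le_i (u : S.Sec) (a : Fin A.N) {z : C2} (hz : z ∈ A.K a) : ‖u.1 a z‖ ≤ ‖S.i u‖ :=
  (S.res u).norm_coe_le_norm ⟨(a, z), hz⟩

theorem exists_bound {P : S.Sec →ₗ[ℂ] S'.Sec}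
    (hP : ∃ C : ℝ, ∀ (u : S.Sec) (M : ℝ), (∀ b, ∀ w ∈ A.K b, ‖u.1 b w‖ ≤ M) →
      ∀ a, ∀ z ∈ A.K a, ‖(P u).1 a z‖ ≤ C * M) :
    ∃ C : ℝ, ∀ u, ‖(S'.i ∘ₗ P) u‖ ≤ C * ‖S.i u‖ := by
  obtain ⟨C, hC⟩ := hP
  refine ⟨|C|, fun u => norm_i_le (mul_nonneg (abs_nonneg _) (norm_nonneg _)) fun a z hz => ?_⟩
  exact (hC u ‖S.i u‖ (fun b w hw => norm_le_i u b hw) a z hz).trans
    (mul_le_mul_of_nonneg_right (le_abs_self _) (norm_nonneg _))

/-- the extension of an operator which is bounded in the sup norm -/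
def extB (P : S.Sec →ₗ[ℂ] S'.Sec) : S.Bn →L[ℂ] S'.Bn := (S'.i ∘ₗ P).extendOfNorm S.i

theorem extB_i {P : S.Sec →ₗ[ℂ] S'.Sec}
    (hP : ∃ C : ℝ, ∀ (u : S.Sec) (M : ℝ), (∀ b, ∀ w ∈ A.K b, ‖u.1 b w‖ ≤ M) →
      ∀ a, ∀ z ∈ A.K a, ‖(P u).1 a z‖ ≤ C * M) (u : S.Sec) :
    S'.i (P u) = extB P (S.i u) :=
  (LinearMap.extendOfNorm_eq S.i_dense (exists_bound hP) u).symm

end ext

/-! ### the Banach complex -/

variable [IsManifold 𝓘(ℂ, C2) ω X] [CompactSpace X] {r : ℕ} {B : Bun A r}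

/-- **The parametrix complex of a bundle with a parametrix.** -/
def bcplx (P : PS B) : H983.BCplx B where
  i0 := B.sb0.i
  i1 := B.sb1.i
  i2 := B.sb2.i
  d0 := B.d0
  d1 := B.d1
  P0 := extB P.P0
  P1 := extB P.P1
  P0A := P.P0
  P1A := P.P1
  R0 := rOp P.k0
  R1 := rOp P.k1
  R2 := rOp P.k2
  R0A := LinearMap.id - P.P0 ∘ₗ B.d0
  R1A := LinearMap.id - B.d0 ∘ₗ P.P0 - P.P1 ∘ₗ B.d1
  R2A := LinearMap.id - B.d1 ∘ₗ P.P1
  dd := B.d1_d0
  iP0 := extB_i P.bd0
  iP1 := extB_i P.bd1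
  reg0 := reg_rOp _ _ fun u => by
    change u.1 - (P.P0 (B.d0 u)).1 = P.k0.op u.1
    rw [P.eq0 u]
    abel
  reg1 := reg_rOp _ _ fun u => by
    change u.1 - (B.d0 (P.P0 u)).1 - (P.P1 (B.d1 u)).1 = P.k1.op u.1
    rw [sub_sub, P.eq1 u]
    abel
  reg2 := reg_rOp _ _ fun u => by
    change u.1 - (B.d1 (P.P1 u)).1 = P.k2.op u.1
    rw [P.eq2 u]
    abel
  h0 u := by
    change _ = u - (u - P.P0 (B.d0 u))
    abel
  h1 u := by
    change _ = u - (u - B.d0 (P.P0 u) - P.P1 (B.d1 u))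
    abel
  h2 u := by
    change _ = u - (u - B.d1 (P.P1 u))
    abel

/-- the form used by helper983 -/
theorem exists_bcplx (P : PS B) : ∃ C : H983.BCplx B, (∀ u, C.i0 u = B.sb0.i u) ∧
    (∀ w, C.i1 w = B.sb1.i w) ∧ (∀ b, C.i2 b = B.sb2.i b) ∧ (∀ u, C.d0 u = B.d0 u) ∧
    ∀ w, C.d1 w = B.d1 w :=
  ⟨bcplx P, fun _ => rfl, fun _ => rfl, fun _ => rfl, fun _ => rfl, fun _ => rfl⟩

/-- the form used in the structure `Analytic` of helper983 -/
theorem exists_cplxOf (P : PS B) : ∃ C : H983.BCplx B, H983.CplxOf B C :=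
  ⟨bcplx P, fun _ => rfl, fun _ => rfl, fun _ => rfl, fun _ => rfl, fun _ => rfl⟩

theorem fr1 (P : PS B) : H983.FR1 B :=
  H983.fr1_of (bcplx P) (fun _ => rfl) (fun _ => rfl) fun _ => rfl

theorem fr2 (P : PS B) : H983.FR2 B := H983.fr2_of (bcplx P) (fun _ => rfl) fun _ => rfl

/-- finite-dimensional cohomology from Hodge data -/
theorem finCoh_of_hodge {A0 A1 A2 X0 X1 X2 : Type*}
    [AddCommGroup A0] [Module ℂ A0] [AddCommGroup A1] [Module ℂ A1]
    [AddCommGroup A2] [Module ℂ A2]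
    [NormedAddCommGroup X0] [NormedSpace ℂ X0] [NormedAddCommGroup X1] [NormedSpace ℂ X1]
    [NormedAddCommGroup X2] [NormedSpace ℂ X2] {C : PComplex ℂ A0 A1 A2 X0 X1 X2}
    (h : HodgeData C) : FinCoh C.d0 C.d1 := by
  have i0 := h.fin0
  have i1 := h.fin1
  have i2 := h.fin2
  have k0 : ∀ u, h.H0 (C.i0 u) = 0 → h.L0 (C.i0 u) = 0 := fun u hu =>
    C.reg0.inj (by rw [h.iL0, hu, map_zero])
  have k1 : ∀ u, h.H1 (C.i1 u) = 0 → h.L1 (C.i1 u) = 0 := fun u hu =>
    C.reg1.inj (by rw [h.iL1, hu, map_zero])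
  have k2 : ∀ u, h.H2 (C.i2 u) = 0 → h.L2 (C.i2 u) = 0 := fun u hu =>
    C.reg2.inj (by rw [h.iL2, hu, map_zero])
  refine FinCoh.of_maps ((h.H0 : X0 →ₗ[ℂ] X0).rangeRestrict ∘ₗ C.i0) (fun u hu hg => ?_)
    ((h.H1 : X1 →ₗ[ℂ] X1).rangeRestrict ∘ₗ C.i1) (fun w hw hg => ?_)
    ((h.H2 : X2 →ₗ[ℂ] X2).rangeRestrict ∘ₗ C.i2) fun b hb => ?_
  · have h1 : h.H0 (C.i0 u) = 0 := congrArg Subtype.val hg
    have h2 := h.eq0 u
    rw [hu, map_zero, k0 u h1, sub_zero] at h2
    exact h2.symm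
  · have h1 : h.H1 (C.i1 w) = 0 := congrArg Subtype.val hg
    have h2 := h.eq1 w
    rw [hw, map_zero, add_zero, k1 w h1, sub_zero] at h2
    exact ⟨_, h2⟩
  · have h1 : h.H2 (C.i2 b) = 0 := congrArg Subtype.val hb
    have h2 := h.eq2 b
    rw [k2 b h1, sub_zero] at h2
    exact ⟨_, h2⟩

theorem finCoh_of_ps (P : PS B) : FinCoh B.d0 B.d1 := by
  obtain ⟨h⟩ := (bcplx P).exists_hodge
  exact finCoh_of_hodge h

/-- **Everything from the parametrix.** -/
theorem anBun (P : PS B) : AnBun B := ⟨⟨P⟩, fr1 P, fr2 P, finCoh_of_ps P⟩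

end Vale.Agent.P267.H439
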